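import Vale.Agent.P255.Cylinder.Defs
import Vale.Agent.P255.Profile.Basic
import Vale.Agent.P255.Riem.Chr

/-!
# P255 module B2, curvature of the coordinate metrics

For a warped metric `dr² + w(r)² ℓ² + c m²` one has `g(R(a,b)b,a) = -w w'' (a₀ ℓb - b₀ ℓa)²`.
The bound on `-5/2 ≤ r ≤ 7/2` comes from compactness, the metric not depending on `v, u`.
-/

open scoped ContDiff Topology
open Set Filter

set_option maxSynthPendingDepth 3

namespace Vale.Agent.P255

/-- the radial coordinate -/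
noncomputable def radP : E3 →L[ℝ] ℝ := EuclideanSpace.proj (0 : Fin 3)

/-- the radial vector -/
noncomputable def radV : E3 := vec 1 0 0

@[simp] theorem radV_zero : radV 0 = 1 := rfl

@[simp] theorem radP_apply (a : E3) : radP a = a 0 := rfl

theorem vec_coord (a b c : ℝ) (i : Fin 3) : vec a b c i = ![a, b, c] i := rfl

theorem formOf_apply (A : Fin 3 → Fin 3 → ℝ) (a b : E3) :
    formOf A a b = ∑ i, ∑ j, A i j * (a i * b j) := by
  simp [formOf]

/-! ### flat metrics -/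

theorem curv_const {B : Form 3} (y a b c : E3) : curv (fun _ => B) y a b c = 0 := by
  have h : ∀ z u v : E3, christoffel (fun _ : E3 => B) z u v = 0 := fun z u v => by
    simp [christoffel]
  simp [curv, h]

theorem curv_gL (y a b c : E3) : curv gL y a b c = 0 := curv_const y a b c

theorem curv_gR (y a b c : E3) : curv gR y a b c = 0 := curv_const y a b c

/-! ### warped metrics -/

/-- `dr² + f ℓ² + c m²` -/
noncomputable def warpForm (ℓ m : E3 →L[ℝ] ℝ) (f c : ℝ) : Form 3 :=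
  radP.smulRight radP + f • ℓ.smulRight ℓ + c • m.smulRight m

theorem warpForm_apply (ℓ m : E3 →L[ℝ] ℝ) (f c : ℝ) (a b : E3) :
    warpForm ℓ m f c a b = a 0 * b 0 + f * (ℓ a * ℓ b) + c * (m a * m b) := by
  simp [warpForm]

/-- the data of a warped metric -/
structure WarpAt (G : E3 → Form 3) (ℓ m : E3 →L[ℝ] ℝ) (L : E3) (w : ℝ → ℝ) (c : ℝ) (s : Set ℝ) :
    Prop where
  isOpen : IsOpen s
  smooth : ContDiffOn ℝ ∞ w s
  pos : ∀ r ∈ s, 0 < w r
  cpos : 0 < c
  eq : ∀ y : E3, y 0 ∈ s → G y = warpForm ℓ m (w (y 0) ^ 2) c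
  l0 : ℓ radV = 0
  m0 : m radV = 0
  L0 : L 0 = 0
  lL : ℓ L = 1
  mL : m L = 0
  inj : ∀ a : E3, a 0 = 0 → ℓ a = 0 → m a = 0 → a = 0

namespace WarpAt

variable {G : E3 → Form 3} {ℓ m : E3 →L[ℝ] ℝ} {L : E3} {w : ℝ → ℝ} {c : ℝ} {s : Set ℝ}
  (h : WarpAt G ℓ m L w c s)
include h

theorem hasDeriv {r : ℝ} (hr : r ∈ s) : HasDerivAt w (deriv w r) r :=
  ((h.smooth.differentiableOn (by simp)).differentiableAt (h.isOpen.mem_nhds hr)).hasDerivAt

theorem hasDeriv2 {r : ℝ} (hr : r ∈ s) : HasDerivAt (deriv w) (deriv (deriv w) r) r :=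
  ((((contDiffOn_infty_iff_deriv_of_isOpen h.isOpen).1 h.smooth).2.differentiableOn
    (by simp)).differentiableAt (h.isOpen.mem_nhds hr)).hasDerivAt

theorem invertible {y : E3} (hy : y 0 ∈ s) : (G y).IsInvertible := by
  refine isInvertible_of_pos fun a ha => ?_
  rw [h.eq y hy, warpForm_apply]
  have hw := pow_pos (h.pos _ hy) 2
  have hc := h.cpos
  by_contra hn
  push Not at hn
  have h1 := mul_self_nonneg (a 0)
  have h2 := mul_nonneg hw.le (mul_self_nonneg (ℓ a))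
  have h3 := mul_nonneg hc.le (mul_self_nonneg (m a))
  refine ha (h.inj a ?_ ?_ ?_)
  · exact mul_self_eq_zero.1 (by linarith)
  · exact mul_self_eq_zero.1 ((mul_eq_zero.1 (by linarith :
      w (y 0) ^ 2 * (ℓ a * ℓ a) = 0)).resolve_left hw.ne')
  · exact mul_self_eq_zero.1 ((mul_eq_zero.1 (by linarith :
      c * (m a * m a) = 0)).resolve_left hc.ne')

theorem fderiv_apply {y : E3} (hy : y 0 ∈ s) (u : E3) :
    fderiv ℝ G y u = (u 0 * (2 * w (y 0) * deriv w (y 0))) • ℓ.smulRight ℓ := by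
  have he : G =ᶠ[𝓝 y] fun y => warpForm ℓ m (w (y 0) ^ 2) c :=
    eventually_of_mem ((h.isOpen.preimage radP.continuous).mem_nhds hy) fun z hz => h.eq z hz
  have hf : HasFDerivAt (fun y : E3 => w (y 0) ^ 2)
      ((2 * w (y 0) * deriv w (y 0)) • radP) y := by
    refine ((((h.hasDeriv hy).fun_pow 2).comp_hasFDerivAt y radP.hasFDerivAt)).congr_fderiv ?_
    simp
  have hG : HasFDerivAt (fun y => warpForm ℓ m (w (y 0) ^ 2) c) _ y :=
    ((hf.smul_const (ℓ.smulRight ℓ)).const_add (radP.smulRight radP)).add_const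
      (c • m.smulRight m)
  rw [he.fderiv_eq, hG.fderiv]
  simp [mul_comm]

theorem christoffel_eq {y : E3} (hy : y 0 ∈ s) (u v : E3) :
    christoffel G y u v = (-(w (y 0) * deriv w (y 0)) * (ℓ u * ℓ v)) • radV
      + (deriv w (y 0) / w (y 0) * (u 0 * ℓ v + v 0 * ℓ u)) • L := by
  refine christoffel_eq_of_spec (h.invertible hy) fun x => ?_
  have hw := (h.pos _ hy).ne'
  rw [h.eq y hy, warpForm_apply, h.fderiv_apply hy, h.fderiv_apply hy, h.fderiv_apply hy]
  simp [h.l0, h.m0, h.lL, h.mL, h.L0]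
  field_simp
  ring

theorem secForm_eq {y : E3} (hy : y 0 ∈ s) (a b : E3) :
    secForm G y a b = -(w (y 0) * deriv (deriv w) (y 0)) * (a 0 * ℓ b - b 0 * ℓ a) ^ 2 := by
  have hw := (h.pos _ hy).ne'
  have key : ∀ u v x : E3, fderiv ℝ (fun z => christoffel G z v x) y u =
      (u 0 * (-(deriv w (y 0) * deriv w (y 0) + w (y 0) * deriv (deriv w) (y 0))) * (ℓ v * ℓ x)) •
        radV
      + (u 0 * ((deriv (deriv w) (y 0) * w (y 0) - deriv w (y 0) * deriv w (y 0)) / w (y 0) ^ 2)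
          * (v 0 * ℓ x + x 0 * ℓ v)) • L := by
    intro u v x
    have he : (fun z => christoffel G z v x) =ᶠ[𝓝 y] fun z =>
        (-(w (z 0) * deriv w (z 0)) * (ℓ v * ℓ x)) • radV
          + (deriv w (z 0) / w (z 0) * (v 0 * ℓ x + x 0 * ℓ v)) • L :=
      eventually_of_mem ((h.isOpen.preimage radP.continuous).mem_nhds hy)
        fun z hz => h.christoffel_eq hz v x
    have hr : HasFDerivAt (fun z : E3 => z 0) radP y := radP.hasFDerivAt
    have d1' := ((h.hasDeriv hy).fun_mul (h.hasDeriv2 hy)).fun_neg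
    have d1 : HasFDerivAt (fun z : E3 => -(w (z 0) * deriv w (z 0))) _ y :=
      HasDerivAt.comp_hasFDerivAt (f := fun z : E3 => z 0) y d1' hr
    have d2' := (h.hasDeriv2 hy).fun_div (h.hasDeriv hy) hw
    have d2 : HasFDerivAt (fun z : E3 => deriv w (z 0) / w (z 0)) _ y :=
      HasDerivAt.comp_hasFDerivAt (f := fun z : E3 => z 0) y d2' hr
    rw [he.fderiv_eq, (((d1.mul_const (ℓ v * ℓ x)).smul_const radV).fun_add
      ((d2.mul_const (v 0 * ℓ x + x 0 * ℓ v)).smul_const L)).fderiv]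
    simp [mul_comm, add_comm]
  simp only [secForm, curv, key, h.christoffel_eq hy]
  rw [h.eq y hy]
  simp [warpForm_apply, h.l0, h.m0, h.lL, h.mL, h.L0]
  field_simp
  ring

end WarpAt

theorem gC_eq_left {y : E3} (hy : y 0 ∈ Ioo (-3:ℝ) 0) :
    gC y = warpForm (EuclideanSpace.proj (1 : Fin 3) - EuclideanSpace.proj (2 : Fin 3))
      (EuclideanSpace.proj (2 : Fin 3)) (wL (y 0) ^ 2) 1 := by
  have hc : y 0 ∈ cylI := ⟨hy.1, by linarith [hy.2]⟩
  have hw := (wL_pos hc).ne'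
  ext a b
  rw [gC, formOf_apply, warpForm_apply]
  simp [Fin.sum_univ_three, gCm, qD, qM_left hy.2.le, qG_left hc hy.2.le, qA]
  field_simp
  ring

theorem gC_eq_right {y : E3} (hy : y 0 ∈ Ioo (1:ℝ) 4) :
    gC y = warpForm (EuclideanSpace.proj (2 : Fin 3))
      (EuclideanSpace.proj (1 : Fin 3)) (wR (y 0) ^ 2) (1 / qA 1) := by
  have hc : y 0 ∈ cylI := ⟨by linarith [hy.1], hy.2⟩
  have hw := (wR_pos hc).ne'
  have hA : qA 1 ≠ 0 := (qA_pos ⟨by norm_num, by norm_num⟩).ne'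
  ext a b
  rw [gC, formOf_apply, warpForm_apply]
  simp [Fin.sum_univ_three, gCm, qD, qM_right hy.1.le, qA_right hc hy.1.le, qG]
  field_simp
  ring

theorem warpAt_left : WarpAt gC (EuclideanSpace.proj (1 : Fin 3) - EuclideanSpace.proj (2 : Fin 3))
    (EuclideanSpace.proj (2 : Fin 3)) (vec 0 1 0) wL 1 (Ioo (-3) 0) where
  isOpen := isOpen_Ioo
  smooth := wL_smooth.mono (Ioo_subset_Ioo le_rfl (by norm_num))
  pos r hr := wL_pos ⟨hr.1, by linarith [hr.2]⟩
  cpos := one_pos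
  eq _ hy := gC_eq_left hy
  l0 := by simp [radV, vec_coord]
  m0 := by simp [radV, vec_coord]
  L0 := by simp [vec_coord]
  lL := by simp [vec_coord]
  mL := by simp [vec_coord]
  inj a h0 h1 h2 := by
    simp only [sub_apply, PiLp.proj_apply] at h1 h2
    ext i; fin_cases i <;> simp <;> linarith

theorem warpAt_right : WarpAt gC (EuclideanSpace.proj (2 : Fin 3))
    (EuclideanSpace.proj (1 : Fin 3)) (vec 0 0 1) wR (1 / qA 1) (Ioo 1 4) where
  isOpen := isOpen_Ioo
  smooth := wR_smooth.mono (Ioo_subset_Ioo (by norm_num) le_rfl)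
  pos r hr := wR_pos ⟨by linarith [hr.1], hr.2⟩
  cpos := one_div_pos.2 (qA_pos ⟨by norm_num, by norm_num⟩)
  eq _ hy := gC_eq_right hy
  l0 := by simp [radV, vec_coord]
  m0 := by simp [radV, vec_coord]
  L0 := by simp [vec_coord]
  lL := by simp [vec_coord]
  mL := by simp [vec_coord]
  inj a h0 h1 h2 := by
    simp only [PiLp.proj_apply] at h1 h2
    ext i; fin_cases i <;> simp <;> linarith

/-! ### the general cylinder metric -/

theorem domC_isOpen : IsOpen domC := isOpen_Ioo.preimage radP.continuous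

theorem gC_pos {y : E3} (hy : y ∈ domC) (a : E3) (ha : a ≠ 0) : 0 < gC y a a := by
  have hA := qA_pos (r := y 0) hy
  have hD := qD_pos (r := y 0) hy
  have e : gC y a a = a 0 * a 0
      + ((qA (y 0) * a 2 - qM (y 0) * a 1) ^ 2 + qD (y 0) * a 1 ^ 2) / (qA (y 0) * qD (y 0)) := by
    rw [gC, formOf_apply]
    simp [Fin.sum_univ_three, gCm]
    field_simp
    rw [qD]
    ring
  rw [e]
  by_contra hn
  push Not at hn
  have h1 := mul_self_nonneg (a 0)
  have hden := mul_pos hA hD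
  have h2 : 0 ≤ ((qA (y 0) * a 2 - qM (y 0) * a 1) ^ 2 + qD (y 0) * a 1 ^ 2)
      / (qA (y 0) * qD (y 0)) := by positivity
  have a0 : a 0 = 0 := mul_self_eq_zero.1 (by linarith)
  have hz : (qA (y 0) * a 2 - qM (y 0) * a 1) ^ 2 + qD (y 0) * a 1 ^ 2 = 0 :=
    (div_eq_zero_iff.1 (by linarith)).resolve_right hden.ne'
  have h3 := sq_nonneg (qA (y 0) * a 2 - qM (y 0) * a 1)
  have h4 := mul_nonneg hD.le (sq_nonneg (a 1))
  have a1 : a 1 = 0 := by
    have : qD (y 0) * a 1 ^ 2 = 0 := by linarith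
    exact sq_eq_zero_iff.1 ((mul_eq_zero.1 this).resolve_left hD.ne')
  have a2 : a 2 = 0 := by
    have := sq_eq_zero_iff.1 (by linarith : (qA (y 0) * a 2 - qM (y 0) * a 1) ^ 2 = 0)
    rw [a1, mul_zero, sub_zero] at this
    exact (mul_eq_zero.1 this).resolve_left hA.ne'
  exact ha (by ext i; fin_cases i <;> simp [a0, a1, a2])

theorem gC_invertible {y : E3} (hy : y ∈ domC) : (gC y).IsInvertible :=
  isInvertible_of_pos (gC_pos hy)

theorem gC_contDiffOn : ContDiffOn ℝ ∞ gC domC := by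
  have hD : ∀ r ∈ cylI, qD r ≠ 0 := fun r hr => (qD_pos hr).ne'
  have hd : ContDiffOn ℝ ∞ qD cylI := (qA_smooth.mul qG_smooth).sub (qM_smooth.pow 2)
  have he : ∀ i j, ContDiffOn ℝ ∞ (fun r => gCm r i j) cylI := by
    intro i j
    fin_cases i <;> fin_cases j <;>
      simp only [gCm, Matrix.cons_val_zero, Matrix.cons_val_one, Matrix.cons_val,
        Fin.reduceFinMk] <;>
      first
        | exact contDiffOn_const
        | exact qG_smooth.div hd hD
        | exact qM_smooth.neg.div hd hD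
        | exact qA_smooth.div hd hD
  unfold gC formOf
  exact ContDiffOn.sum fun i _ => ContDiffOn.sum fun j _ =>
    ((he i j).comp radP.contDiff.contDiffOn fun _ h => h).smul contDiffOn_const

theorem chrBil_contDiffOn : ContDiffOn ℝ ∞ (chrBil gC) domC := by
  have hd : ContDiffOn ℝ ∞ (fderiv ℝ gC) domC :=
    gC_contDiffOn.fderiv_of_isOpen domC_isOpen le_rfl
  intro y hy
  have hcd : ContDiffAt ℝ ∞ (fun z => chrCov (fderiv ℝ gC z)) y := by
    have hdy := hd.contDiffAt (domC_isOpen.mem_nhds hy)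
    have hflip := (ContinuousLinearMap.flipₗᵢ ℝ E3 E3 (E3 →L[ℝ] ℝ)).toContinuousLinearEquiv
      |>.toContinuousLinearMap.contDiff.contDiffAt.comp y hdy
    exact ((hdy.add hflip).sub (contDiffAt_const.clm_comp hflip)).const_smul (1 / 2 : ℝ)
  have hi : ContDiffAt ℝ ∞ (fun z => (gC z).inverse) y :=
    ((gC_invertible hy).contDiffAt_map_inverse).comp y
      (gC_contDiffOn.contDiffAt (domC_isOpen.mem_nhds hy))
  exact (((ContinuousLinearMap.compL ℝ E3 (E3 →L[ℝ] ℝ) E3).contDiff.contDiffAt.comp y hi).clm_comp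
    hcd).contDiffWithinAt

theorem chrBil_differentiableAt {y : E3} (hy : y ∈ domC) : DifferentiableAt ℝ (chrBil gC) y :=
  (chrBil_contDiffOn.differentiableOn (by simp)).differentiableAt (domC_isOpen.mem_nhds hy)

theorem secForm_gC_continuousOn (a b : E3) : ContinuousOn (fun y => secForm gC y a b) domC := by
  have hG := gC_contDiffOn.continuousOn
  have hB := chrBil_contDiffOn.continuousOn
  have hB' := (chrBil_contDiffOn.continuousOn_fderiv_of_isOpen domC_isOpen (by simp))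
  have hc : ContinuousOn (fun y => gC y (fderiv ℝ (chrBil gC) y a b b
      - fderiv ℝ (chrBil gC) y b a b + chrBil gC y a (chrBil gC y b b)
      - chrBil gC y b (chrBil gC y a b)) a) domC := by fun_prop
  exact hc.congr fun y hy => by rw [secForm, curv_eq_chrBil (chrBil_differentiableAt hy)]

/-- nonpositive curvature outside the collar -/
theorem secForm_gC_nonpos {y : E3} (hy : y ∈ domC) (h : y 0 ≤ 0 ∨ 1 ≤ y 0) (a b : E3) :
    secForm gC y a b ≤ 0 := by
  have hopen : ∀ z : E3, z 0 ∈ Ioo (-3:ℝ) 0 ∪ Ioo 1 4 → secForm gC z a b ≤ 0 := by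
    rintro z (hz | hz)
    · have hc : z 0 ∈ cylI := ⟨hz.1, by linarith [hz.2]⟩
      rw [warpAt_left.secForm_eq hz, neg_mul]
      exact neg_nonpos.2 (mul_nonneg (mul_nonneg (wL_pos hc).le (wL_convex hc hz.2.le).2)
        (sq_nonneg _))
    · have hc : z 0 ∈ cylI := ⟨by linarith [hz.1], hz.2⟩
      rw [warpAt_right.secForm_eq hz, neg_mul]
      exact neg_nonpos.2 (mul_nonneg (mul_nonneg (wR_pos hc).le (wR_convex hc hz.1.le).2)
        (sq_nonneg _))
  have hline : Continuous fun τ : ℝ => y + τ • radV := by fun_prop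
  have hlim : Tendsto (fun τ : ℝ => secForm gC (y + τ • radV) a b) (𝓝 0)
      (𝓝 (secForm gC y a b)) := by
    have := ((secForm_gC_continuousOn a b).continuousAt (domC_isOpen.mem_nhds hy)).tendsto.comp
      (by simpa using hline.tendsto 0 : Tendsto (fun τ : ℝ => y + τ • radV) (𝓝 0) (𝓝 y))
    exact this
  have h0 : ∀ τ : ℝ, (y + τ • radV) 0 = y 0 + τ := fun τ => by simp [radV, vec_coord]
  rcases h with h | h
  · refine le_of_tendsto (hlim.mono_left (nhdsWithin_le_nhds (s := Iio (0:ℝ)))) ?_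
    filter_upwards [self_mem_nhdsWithin, nhdsWithin_le_nhds
      (Ioi_mem_nhds (show (-3 : ℝ) - y 0 < 0 by linarith [hy.1]))] with τ h1 h2
    refine hopen _ (Or.inl ?_)
    rw [h0]
    exact ⟨by linarith [mem_Ioi.1 h2], by linarith [mem_Iio.1 h1]⟩
  · refine le_of_tendsto (hlim.mono_left (nhdsWithin_le_nhds (s := Ioi (0:ℝ)))) ?_
    filter_upwards [self_mem_nhdsWithin, nhdsWithin_le_nhds
      (Iio_mem_nhds (show (0 : ℝ) < 4 - y 0 by linarith [hy.2]))] with τ h1 h2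
    refine hopen _ (Or.inr ?_)
    rw [h0]
    exact ⟨by linarith [mem_Ioi.1 h1], by linarith [mem_Iio.1 h2]⟩

/-! ### the bound -/

theorem chrBil_translate {G : E3 → Form 3} {t : E3} (h : ∀ y, G (y + t) = G y) (y : E3) :
    chrBil G (y + t) = chrBil G y := by
  have e : fderiv ℝ G (y + t) = fderiv ℝ G y := by
    rw [← fderiv_comp_add_right t, funext h]
  simp only [chrBil, h, e]

theorem gC_shift {t : E3} (ht : t 0 = 0) (y : E3) : gC (y + t) = gC y := by
  simp [gC, ht]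

/-- the curvature is bounded on `-5/2 ≤ r ≤ 7/2` -/
theorem curv_gC_bound :
    ∃ K, ∀ y : E3, y 0 ∈ Icc (-(5/2) : ℝ) (7/2) → ∀ a b c d : E3,
      |gC y (curv gC y a b c) d| ≤ K *
        (Real.sqrt (gC y a a) * Real.sqrt (gC y b b) * Real.sqrt (gC y c c) * Real.sqrt (gC y d d)) := by
  set I := Icc (-(5/2) : ℝ) (7/2)
  have hsub : MapsTo (fun r => vec r 0 0) I domC := fun r hr => by
    show (vec r 0 0) 0 ∈ cylI
    simp only [vec_coord, Matrix.cons_val_zero]
    exact ⟨by linarith [hr.1], by linarith [hr.2]⟩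
  have hv : Continuous fun r : ℝ => vec r 0 0 := by unfold vec; fun_prop
  have hG : ContinuousOn (fun r => gC (vec r 0 0)) I :=
    gC_contDiffOn.continuousOn.comp hv.continuousOn hsub
  have hB : ContinuousOn (fun r => chrBil gC (vec r 0 0)) I :=
    chrBil_contDiffOn.continuousOn.comp hv.continuousOn hsub
  have hB' : ContinuousOn (fun r => fderiv ℝ (chrBil gC) (vec r 0 0)) I :=
    (chrBil_contDiffOn.continuousOn_fderiv_of_isOpen domC_isOpen (by simp)).comp hv.continuousOn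
      hsub
  obtain ⟨C0, hC0⟩ := isCompact_Icc.exists_bound_of_continuousOn hG
  obtain ⟨C1, hC1⟩ := isCompact_Icc.exists_bound_of_continuousOn hB
  obtain ⟨C2, hC2⟩ := isCompact_Icc.exists_bound_of_continuousOn hB'
  obtain ⟨⟨r0, e0⟩, ⟨hr0, he0⟩, hmin⟩ := (isCompact_Icc.prod (isCompact_sphere (0 : E3) 1)).exists_isMinOn
    (s := I ×ˢ Metric.sphere (0 : E3) 1)
    ⟨(0, radV), by norm_num [I], by
      simp [radV, EuclideanSpace.norm_eq, vec_coord, Fin.sum_univ_three]⟩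
    (f := fun p : ℝ × E3 => gC (vec p.1 0 0) p.2 p.2)
    (((hG.comp continuousOn_fst fun p hp => hp.1).clm_apply continuousOn_snd).clm_apply
      continuousOn_snd)
  set μ := gC (vec r0 0 0) e0 e0
  have hμ : 0 < μ := gC_pos (hsub hr0) e0 fun hh => by simp [hh] at he0
  refine ⟨C0 * (2 * C2 + 2 * C1 * C1) / μ ^ 2, fun y hy a b c d => ?_⟩
  set p := vec (y 0) 0 0 with hp
  set t := y - p
  have ht : t 0 = 0 := by simp [t, p, vec_coord]
  have hpt : p + t = y := by simp [t]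
  have hg : gC y = gC p := by rw [← hpt]; exact gC_shift ht p
  have hchr : ∀ z, chrBil gC (z + t) = chrBil gC z := chrBil_translate (gC_shift ht)
  have hb : chrBil gC y = chrBil gC p := by rw [← hpt]; exact hchr p
  have hb' : fderiv ℝ (chrBil gC) y = fderiv ℝ (chrBil gC) p := by
    rw [← hpt, ← fderiv_comp_add_right t, funext hchr]
  have hyd : y ∈ domC := ⟨by linarith [hy.1], by linarith [hy.2]⟩
  rw [curv_eq_chrBil (chrBil_differentiableAt hyd), hg, hb, hb']
  have n0 : ‖gC p‖ ≤ C0 := hC0 _ hy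
  have n1 : ‖chrBil gC p‖ ≤ C1 := hC1 _ hy
  have n2 : ‖fderiv ℝ (chrBil gC) p‖ ≤ C2 := hC2 _ hy
  have hp1 : 0 ≤ C1 := (norm_nonneg _).trans n1
  have hp2 : 0 ≤ C2 := (norm_nonneg _).trans n2
  have hlow : ∀ x : E3, Real.sqrt μ * ‖x‖ ≤ Real.sqrt (gC p x x) := by
    intro x
    rw [← Real.sqrt_sq (norm_nonneg x), ← Real.sqrt_mul hμ.le]
    refine Real.sqrt_le_sqrt ?_
    rcases eq_or_ne x 0 with rfl | hx
    · simp
    have hn : ‖x‖ ≠ 0 := norm_ne_zero_iff.2 hx
    have hm : μ ≤ gC p (‖x‖⁻¹ • x) (‖x‖⁻¹ • x) :=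
      isMinOn_iff.1 hmin (y 0, ‖x‖⁻¹ • x) ⟨hy, by simp [norm_smul, hn]⟩
    simp only [map_smul, smul_apply, smul_eq_mul] at hm
    calc μ * ‖x‖ ^ 2 ≤ ‖x‖⁻¹ * (‖x‖⁻¹ * gC p x x) * ‖x‖ ^ 2 :=
          mul_le_mul_of_nonneg_right hm (sq_nonneg _)
      _ = _ := by field_simp
  have t2 : ∀ u v w : E3, ‖fderiv ℝ (chrBil gC) p u v w‖ ≤ C2 * ‖u‖ * ‖v‖ * ‖w‖ :=
    fun u v w => by
    refine (((fderiv ℝ (chrBil gC) p u) v).le_opNorm w).trans ?_
    refine mul_le_mul_of_nonneg_right ?_ (norm_nonneg w)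
    refine ((fderiv ℝ (chrBil gC) p u).le_opNorm v).trans ?_
    refine mul_le_mul_of_nonneg_right ?_ (norm_nonneg v)
    exact (ContinuousLinearMap.le_opNorm _ u).trans
      (mul_le_mul_of_nonneg_right n2 (norm_nonneg u))
  have t1 : ∀ u v : E3, ‖chrBil gC p u v‖ ≤ C1 * ‖u‖ * ‖v‖ := fun u v =>
    ((chrBil gC p).le_opNorm₂ u v).trans (by gcongr)
  have t11 : ∀ u v w : E3, ‖chrBil gC p u (chrBil gC p v w)‖ ≤ C1 * C1 * ‖u‖ * ‖v‖ * ‖w‖ :=
    fun u v w => (t1 u _).trans (by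
      calc C1 * ‖u‖ * ‖chrBil gC p v w‖ ≤ C1 * ‖u‖ * (C1 * ‖v‖ * ‖w‖) :=
            mul_le_mul_of_nonneg_left (t1 v w) (by positivity)
        _ = _ := by ring)
  set R := fderiv ℝ (chrBil gC) p a b c - fderiv ℝ (chrBil gC) p b a c
      + chrBil gC p a (chrBil gC p b c) - chrBil gC p b (chrBil gC p a c)
  have hR : ‖R‖ ≤ (2 * C2 + 2 * C1 * C1) * (‖a‖ * ‖b‖ * ‖c‖) := by
    refine (norm_sub_le _ _).trans ?_
    refine (add_le_add ((norm_add_le _ _).trans (add_le_add (norm_sub_le _ _) le_rfl)) le_rfl).trans ?_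
    linarith [t2 a b c, t2 b a c, t11 a b c, t11 b a c]
  have h1 : |gC p R d| ≤ C0 * (2 * C2 + 2 * C1 * C1) * (‖a‖ * ‖b‖ * ‖c‖ * ‖d‖) :=
    calc |gC p R d| ≤ ‖gC p‖ * ‖R‖ * ‖d‖ := (gC p).le_opNorm₂ R d
      _ ≤ C0 * ((2 * C2 + 2 * C1 * C1) * (‖a‖ * ‖b‖ * ‖c‖)) * ‖d‖ := by
          gcongr
          exact (norm_nonneg _).trans n0
      _ = _ := by ring
  refine h1.trans ?_
  have hK : 0 ≤ C0 * (2 * C2 + 2 * C1 * C1) := by
    have : 0 ≤ C0 := (norm_nonneg _).trans n0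
    positivity
  rw [div_mul_eq_mul_div, le_div_iff₀ (by positivity), mul_assoc]
  refine mul_le_mul_of_nonneg_left ?_ hK
  have e : μ ^ 2 = Real.sqrt μ * Real.sqrt μ * (Real.sqrt μ * Real.sqrt μ) := by
    rw [Real.mul_self_sqrt hμ.le, sq]
  rw [e]
  calc ‖a‖ * ‖b‖ * ‖c‖ * ‖d‖ * (Real.sqrt μ * Real.sqrt μ * (Real.sqrt μ * Real.sqrt μ))
      = (Real.sqrt μ * ‖a‖) * (Real.sqrt μ * ‖b‖) * (Real.sqrt μ * ‖c‖) * (Real.sqrt μ * ‖d‖) := by
        ring
    _ ≤ _ := by
        gcongr <;> apply hlow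

end Vale.Agent.P255
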