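import Vale.Agent.P255.Riem.Defs
import Vale.Agent.P255.Model.Spec

/-!
# P255: the gauges in the collar

For a Jacobi field `X` normal to the geodesic `z` in the cylinder and a function `λ`, put
`W = X + λ z'` and `Φ = g(X, DX) + B(W)` with
`B(W) = W₀ g'(θ', W) - ½ r' g'(W, W)`.
-/

open scoped ContDiff
open Set Filter Topology

namespace Vale.Agent.P255

/-- `∂ g / ∂ r` on the cylinder -/
noncomputable def gCr (y : E3) : Form 3 := formOf fun i j => deriv (fun r => gCm r i j) (y 0)

/-- momentum dual to `v` -/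
noncomputable def momV (z : ℝ → E3) (t : ℝ) : ℝ := gC (z t) (deriv z t) (vec 0 1 0)

/-- momentum dual to `u` -/
noncomputable def momU (z : ℝ → E3) (t : ℝ) : ℝ := gC (z t) (deriv z t) (vec 0 0 1)

/-- the boundary term of the field `w` at the point `y` for the velocity `v` -/
noncomputable def bdry (y v w : E3) : ℝ :=
  w 0 * gCr y v w - (1 / 2) * v 0 * gCr y w w

/-- `g(X, DX) + B(X + lam z')` -/
noncomputable def phiGauge (lam : ℝ → ℝ) (z X : ℝ → E3) (t : ℝ) : ℝ :=
  fStd gC z X t + bdry (z t) (deriv z t) (X t + lam t • deriv z t)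

/-- the gauge for geodesics with constant `r` -/
def lam0 (_ _ : ℝ → E3) (_ : ℝ) : ℝ := 0
/-- the gauge for geodesics crossing the collar: `W₀ = 0` -/
noncomputable def lamT (z X : ℝ → E3) (t : ℝ) : ℝ := -(X t 0) / deriv z t 0
/-- the gauge for geodesics returning to the left: `W_v - W_u = 0` -/
noncomputable def lamB (z X : ℝ → E3) (t : ℝ) : ℝ :=
  -(X t 1 - X t 2) / (deriv z t 1 - deriv z t 2)
/-- the gauge for geodesics returning to the right: `W_u = 0` -/
noncomputable def lamU (z X : ℝ → E3) (t : ℝ) : ℝ := -(X t 2) / deriv z t 2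

/-- A geodesic and a normal Jacobi field in the cylinder at time `t`: the equations hold at `t`;
`g(X, z') = 0` holds near `t`. -/
structure CylJac (z X : ℝ → E3) (t : ℝ) : Prop where
  mem : z t 0 ∈ Ioo (-3 : ℝ) 4
  curve : ContDiffAt ℝ ∞ z t
  field : ContDiffAt ℝ ∞ X t
  geo : GeoAt gC z t
  jac : JacAt gC z X t
  normal : ∀ᶠ s in 𝓝 t, gC (z s) (X s) (deriv z s) = 0

end Vale.Agent.P255
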