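import Vale.Agent.P255.Cylinder.Motion
import Vale.Agent.P255.Profile.Ineq

/-!
# P255 module B3, second half: continuity and boundary values of the gauge functions

At `r = 0` one has `qM' = qG' = 0`, so `∂g/∂r = K (dv - du)²` with `K ≤ 0`; at `r = 1` one has
`qA' = qM' = 0`, so `∂g/∂r = K du²` with `0 ≤ K`.
-/

open scoped ContDiff
open Set Filter Topology

namespace Vale.Agent.P255

set_option maxSynthPendingDepth 3

variable {z X : ℝ → E3} {t : ℝ}

theorem phiGauge_zero (lam : (ℝ → E3) → (ℝ → E3) → ℝ → ℝ)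
    (hlam : lam = lam0 ∨ lam = lamT ∨ lam = lamB ∨ lam = lamU) (hX : X t = 0) :
    phiGauge (lam z X) z X t = 0 := by
  have h : lam z X t = 0 := by
    rcases hlam with rfl | rfl | rfl | rfl
    · rfl
    · simp [lamT, hX]
    · simp [lamB, hX]
    · simp [lamU, hX]
  simp [phiGauge, fStd, bdry, hX, h]

theorem gCm_differentiableAt {r : ℝ} (hr : r ∈ cylI) (i j : Fin 3) :
    ContDiffAt ℝ ∞ (fun r => gCm r i j) r := by
  have nh := isOpen_Ioo.mem_nhds (show r ∈ cylI from hr)
  have hA := qA_smooth.contDiffAt nh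
  have hM := qM_smooth.contDiffAt nh
  have hG := qG_smooth.contDiffAt nh
  have hd : ContDiffAt ℝ ∞ qD r := (hA.mul hG).sub (hM.pow 2)
  have hD := (qD_pos hr).ne'
  fin_cases i <;> fin_cases j <;>
    simp only [gCm, Matrix.cons_val_zero, Matrix.cons_val_one, Matrix.cons_val,
      Fin.reduceFinMk] <;>
    first
      | exact contDiffAt_const
      | exact hG.div hd hD
      | exact hM.neg.div hd hD
      | exact hA.div hd hD

theorem gCr_contAt {y : E3} (hy : y ∈ domC) : ContinuousAt gCr y := by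
  have he : ∀ i j, ContinuousAt (fun y : E3 => deriv (fun r => gCm r i j) (y 0)) y := by
    intro i j
    have h : ContDiffOn ℝ ∞ (fun r => gCm r i j) cylI := fun r hr =>
      (gCm_differentiableAt hr i j).contDiffWithinAt
    exact ((h.continuousOn_deriv_of_isOpen isOpen_Ioo (by simp)).continuousAt
      (isOpen_Ioo.mem_nhds (show y 0 ∈ cylI from hy))).comp (f := fun y : E3 => y 0)
      radP.continuous.continuousAt
  unfold gCr formOf
  exact tendsto_finsetSum _ fun i _ => tendsto_finsetSum _ fun j _ =>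
    (he i j).smul continuousAt_const

theorem deriv_continuousAt {f : ℝ → E3} (hf : ContDiffAt ℝ ∞ f t) : ContinuousAt (deriv f) t :=
  show ContinuousAt (fun s => fderiv ℝ f s 1) t from
    ((hf.fderiv_right (m := (∞ : WithTop ℕ∞)) (by simp)).clm_apply contDiffAt_const).continuousAt

theorem phiGauge_continuousAt (h : CylJac z X t) {lam : ℝ → ℝ} (hl : ContinuousAt lam t) :
    ContinuousAt (phiGauge lam z X) t := by
  have hy : z t ∈ domC := h.mem
  have hz := h.curve.continuousAt
  have hz' := deriv_continuousAt h.curve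
  have hX := h.field.continuousAt
  have hX' := deriv_continuousAt h.field
  have hg : ContinuousAt (fun s => gC (z s)) t :=
    (gC_contDiffOn.continuousOn.continuousAt (domC_isOpen.mem_nhds hy)).comp hz
  have hB : ContinuousAt (fun s => chrBil gC (z s)) t :=
    (chrBil_contDiffOn.continuousOn.continuousAt (domC_isOpen.mem_nhds hy)).comp hz
  have hr : ContinuousAt (fun s => gCr (z s)) t := (gCr_contAt hy).comp hz
  have hD : ContinuousAt (covDeriv gC z X) t := by
    show ContinuousAt (fun s => deriv X s + christoffel gC (z s) (deriv z s) (X s)) t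
    simp only [← chrBil_apply]
    exact hX'.add ((hB.clm_apply hz').clm_apply hX)
  have hW : ContinuousAt (fun s => X s + lam s • deriv z s) t := hX.add (hl.smul hz')
  have hc : ∀ i : Fin 3, ∀ {f : ℝ → E3}, ContinuousAt f t → ContinuousAt (fun s => f s i) t :=
    fun i f hf => ((EuclideanSpace.proj (𝕜 := ℝ) i).continuous.continuousAt).comp hf
  show ContinuousAt (fun s => gC (z s) (X s) (covDeriv gC z X s) +
    ((X s + lam s • deriv z s) 0 * gCr (z s) (deriv z s) (X s + lam s • deriv z s)
      - 1 / 2 * deriv z s 0 * gCr (z s) (X s + lam s • deriv z s) (X s + lam s • deriv z s))) t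
  exact ((hg.clm_apply hX).clm_apply hD).add
    (((hc 0 hW).mul ((hr.clm_apply hz').clm_apply hW)).sub
      ((continuousAt_const.mul (hc 0 hz')).mul ((hr.clm_apply hW).clm_apply hW)))

theorem coord_continuousAt {f : ℝ → E3} (hf : ContinuousAt f t) (i : Fin 3) :
    ContinuousAt (fun s => f s i) t :=
  ((EuclideanSpace.proj (𝕜 := ℝ) i).continuous.continuousAt).comp hf

theorem phiT_cont (h : CylJac z X t) (hd : deriv z t 0 ≠ 0) :
    ContinuousAt (phiGauge (lamT z X) z X) t :=
  phiGauge_continuousAt h ((coord_continuousAt h.field.continuousAt 0).neg.div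
    (coord_continuousAt (deriv_continuousAt h.curve) 0) hd)

theorem phiB_cont (h : CylJac z X t) (hd : deriv z t 1 ≠ deriv z t 2) :
    ContinuousAt (phiGauge (lamB z X) z X) t :=
  phiGauge_continuousAt h (((coord_continuousAt h.field.continuousAt 1).sub
      (coord_continuousAt h.field.continuousAt 2)).neg.div
    ((coord_continuousAt (deriv_continuousAt h.curve) 1).sub
      (coord_continuousAt (deriv_continuousAt h.curve) 2)) (sub_ne_zero.2 hd))

theorem phiU_cont (h : CylJac z X t) (hd : deriv z t 2 ≠ 0) :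
    ContinuousAt (phiGauge (lamU z X) z X) t :=
  phiGauge_continuousAt h ((coord_continuousAt h.field.continuousAt 2).neg.div
    (coord_continuousAt (deriv_continuousAt h.curve) 2) hd)

theorem phi0_cont (h : CylJac z X t) : ContinuousAt (phiGauge (lam0 z X) z X) t :=
  phiGauge_continuousAt h (show ContinuousAt (fun _ : ℝ => (0:ℝ)) t from continuousAt_const)

/-! ### the boundary values -/

/-- the three nonconstant entries of `∂g/∂r` -/
theorem gCr_apply (y a b : E3) :
    gCr y a b = deriv (fun r => qG r / qD r) (y 0) * (a 1 * b 1)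
      + deriv (fun r => -qM r / qD r) (y 0) * (a 1 * b 2 + a 2 * b 1)
      + deriv (fun r => qA r / qD r) (y 0) * (a 2 * b 2) := by
  rw [gCr, formOf_apply]
  simp [Fin.sum_univ_three, gCm]
  ring

theorem gCr_entries {r : ℝ} (hr : r ∈ collarI) :
    deriv (fun r => qG r / qD r) r = (-(kap * eflat r) * qD r - qG r *
        (kk * eflat (1 - r) * qG r + qA r * -(kap * eflat r)
          - 2 * qM r * -(nu * eflat r * eflat (1 - r)))) / qD r ^ 2 ∧
    deriv (fun r => -qM r / qD r) r = (nu * eflat r * eflat (1 - r) * qD r + qM r *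
        (kk * eflat (1 - r) * qG r + qA r * -(kap * eflat r)
          - 2 * qM r * -(nu * eflat r * eflat (1 - r)))) / qD r ^ 2 ∧
    deriv (fun r => qA r / qD r) r = (kk * eflat (1 - r) * qD r - qA r *
        (kk * eflat (1 - r) * qG r + qA r * -(kap * eflat r)
          - 2 * qM r * -(nu * eflat r * eflat (1 - r)))) / qD r ^ 2 := by
  have hc := collarI_cylI hr
  have nh := isOpen_Ioo.mem_nhds (show r ∈ cylI from hc)
  have dA := ((qA_smooth.differentiableOn (by simp)).differentiableAt nh).hasDerivAt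
  have dM := ((qM_smooth.differentiableOn (by simp)).differentiableAt nh).hasDerivAt
  have dG := ((qG_smooth.differentiableOn (by simp)).differentiableAt nh).hasDerivAt
  rw [qA_deriv hr] at dA
  rw [qM_deriv] at dM
  rw [qG_deriv hr] at dG
  have dD : HasDerivAt qD _ r := (dA.fun_mul dG).fun_sub (dM.fun_pow 2)
  have hD := (qD_pos hc).ne'
  refine ⟨?_, ?_, ?_⟩
  · rw [(dG.fun_div dD hD).deriv]; push_cast; ring
  · rw [(dM.fun_neg.fun_div dD hD).deriv]; push_cast; ring
  · rw [(dA.fun_div dD hD).deriv]; push_cast; ring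

theorem gCr_zero_left {y : E3} (hr : y 0 = 0) (a b : E3) :
    gCr y a b = -(kk * eflat 1) / qD 0 ^ 2 * ((a 1 - a 2) * (b 1 - b 2)) := by
  have hc : (0:ℝ) ∈ collarI := ⟨by norm_num, by norm_num⟩
  obtain ⟨e1, e2, e3⟩ := gCr_entries hc
  rw [gCr_apply, hr, e1, e2, e3, qM_left le_rfl, qG_left (collarI_cylI hc) le_rfl,
    eflat_zero_of_nonpos le_rfl]
  have hD : qD 0 = qA 0 - 1 := by
    rw [qD, qM_left le_rfl, qG_left (collarI_cylI hc) le_rfl]; ring
  rw [hD, sub_zero]
  ring

theorem gCr_one_right {y : E3} (hr : y 0 = 1) (a b : E3) :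
    gCr y a b = qA 1 ^ 2 * (kap * eflat 1) / qD 1 ^ 2 * (a 2 * b 2) := by
  have hc : (1:ℝ) ∈ collarI := ⟨by norm_num, by norm_num⟩
  obtain ⟨e1, e2, e3⟩ := gCr_entries hc
  rw [gCr_apply, hr, e1, e2, e3, qM_right le_rfl, sub_self, eflat_zero_of_nonpos le_rfl]
  have hD : qD 1 = qA 1 * qG 1 := by rw [qD, qM_right le_rfl]; ring
  rw [hD]
  ring

theorem lamT_W0 (hd : deriv z t 0 ≠ 0) : (X t + lamT z X t • deriv z t) 0 = 0 := by
  simp [lamT]
  field_simp
  ring

/-- at `r = 0` -/
theorem phiT_left (_h : CylJac z X t) (hr : z t 0 = 0) (hd : deriv z t 0 ≠ 0) :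
    (0 < deriv z t 0 → fStd gC z X t ≤ phiGauge (lamT z X) z X t) ∧
    (deriv z t 0 < 0 → phiGauge (lamT z X) z X t ≤ fStd gC z X t) := by
  have hK : -(kk * eflat 1) / qD 0 ^ 2 ≤ 0 :=
    div_nonpos_of_nonpos_of_nonneg (neg_nonpos.2 (mul_nonneg kk_pos.le (eflat_nonneg 1)))
      (sq_nonneg _)
  rw [phiGauge, bdry, lamT_W0 hd, zero_mul, gCr_zero_left hr]
  set W := X t + lamT z X t • deriv z t
  have hs : -(kk * eflat 1) / qD 0 ^ 2 * ((W 1 - W 2) * (W 1 - W 2)) ≤ 0 :=
    mul_nonpos_of_nonpos_of_nonneg hK (mul_self_nonneg _)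
  constructor <;> intro hv <;> nlinarith

/-- at `r = 1` -/
theorem phiT_right (_h : CylJac z X t) (hr : z t 0 = 1) (hd : deriv z t 0 ≠ 0) :
    (deriv z t 0 < 0 → fStd gC z X t ≤ phiGauge (lamT z X) z X t) ∧
    (0 < deriv z t 0 → phiGauge (lamT z X) z X t ≤ fStd gC z X t) := by
  have hK : 0 ≤ qA 1 ^ 2 * (kap * eflat 1) / qD 1 ^ 2 :=
    div_nonneg (mul_nonneg (sq_nonneg _) (mul_nonneg (by rw [kap_eq]; norm_num) (eflat_nonneg 1)))
      (sq_nonneg _)
  rw [phiGauge, bdry, lamT_W0 hd, zero_mul, gCr_one_right hr]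
  set W := X t + lamT z X t • deriv z t
  have hs : 0 ≤ qA 1 ^ 2 * (kap * eflat 1) / qD 1 ^ 2 * (W 2 * W 2) :=
    mul_nonneg hK (mul_self_nonneg _)
  constructor <;> intro hv <;> nlinarith

/-- at `r = 0` the left reflection gauge has no boundary term -/
theorem phiB_left (_h : CylJac z X t) (hr : z t 0 = 0) (hd : deriv z t 1 ≠ deriv z t 2) :
    phiGauge (lamB z X) z X t = fStd gC z X t := by
  have hb : deriv z t 1 - deriv z t 2 ≠ 0 := sub_ne_zero.2 hd
  have hW : (X t + lamB z X t • deriv z t) 1 - (X t + lamB z X t • deriv z t) 2 = 0 := by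
    simp [lamB]
    field_simp
    ring
  rw [phiGauge, bdry, gCr_zero_left hr, gCr_zero_left hr, hW]
  ring

/-- at `r = 1` the right reflection gauge has no boundary term -/
theorem phiU_right (_h : CylJac z X t) (hr : z t 0 = 1) (hd : deriv z t 2 ≠ 0) :
    phiGauge (lamU z X) z X t = fStd gC z X t := by
  have hW : (X t + lamU z X t • deriv z t) 2 = 0 := by
    simp [lamU]
    field_simp
    ring
  rw [phiGauge, bdry, gCr_one_right hr, gCr_one_right hr, hW]
  ring

end Vale.Agent.P255
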