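import Vale.Agent.P255.Cylinder.Motion
import Vale.Agent.P255.Profile.Ineq

/-!
# P255 module B3, first part: the linearised equations on the cylinder

With `c = z'`, `ξ = X₀`, `gr = ∂g/∂r` the Jacobi equation says that the covector
`P = g(X', ·) + ξ gr(c, ·)` has the derivative `e ↦ e₀ (gr(c,X') + ½ ξ grr(c,c))`. Moreover
`Φ = P(X) - (λ ξ + ½ λ² r') U'` near `t`, whatever the function `λ` is.
-/

open scoped ContDiff
open Set Filter Topology

set_option maxSynthPendingDepth 3

namespace Vale.Agent.P255.Gauge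

/-- first component of `g a` -/
noncomputable def pX (r : ℝ) (a : E3) : ℝ := (qG r * a 1 - qM r * a 2) / qD r

/-- second component of `g a` -/
noncomputable def pW (r : ℝ) (a : E3) : ℝ := (qA r * a 2 - qM r * a 1) / qD r

/-- the metric on the angles -/
noncomputable def qg (r y1 y2 : ℝ) : ℝ :=
  (qG r * y1 ^ 2 - 2 * qM r * y1 * y2 + qA r * y2 ^ 2) / qD r

theorem qU'_eq_qf (x w r : ℝ) : qU' x w r =
    deriv qA r * x ^ 2 + 2 * deriv qM r * x * w + deriv qG r * w ^ 2 := rfl

section profile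

variable {r : ℝ} (hr : r ∈ cylI)
include hr

theorem hd_qA : HasDerivAt qA (deriv qA r) r :=
  ((qA_smooth.differentiableOn (by simp)).differentiableAt (isOpen_Ioo.mem_nhds hr)).hasDerivAt

theorem hd_qM : HasDerivAt qM (deriv qM r) r :=
  ((qM_smooth.differentiableOn (by simp)).differentiableAt (isOpen_Ioo.mem_nhds hr)).hasDerivAt

theorem hd_qG : HasDerivAt qG (deriv qG r) r :=
  ((qG_smooth.differentiableOn (by simp)).differentiableAt (isOpen_Ioo.mem_nhds hr)).hasDerivAt

theorem hd2_qA : HasDerivAt (deriv qA) (deriv (deriv qA) r) r :=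
  ((((contDiffOn_infty_iff_deriv_of_isOpen isOpen_Ioo).1 qA_smooth).2.differentiableOn
    (by simp)).differentiableAt (isOpen_Ioo.mem_nhds hr)).hasDerivAt

theorem hd2_qM : HasDerivAt (deriv qM) (deriv (deriv qM) r) r :=
  ((((contDiffOn_infty_iff_deriv_of_isOpen isOpen_Ioo).1 qM_smooth).2.differentiableOn
    (by simp)).differentiableAt (isOpen_Ioo.mem_nhds hr)).hasDerivAt

theorem hd2_qG : HasDerivAt (deriv qG) (deriv (deriv qG) r) r :=
  ((((contDiffOn_infty_iff_deriv_of_isOpen isOpen_Ioo).1 qG_smooth).2.differentiableOn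
    (by simp)).differentiableAt (isOpen_Ioo.mem_nhds hr)).hasDerivAt

theorem hd_qD : HasDerivAt qD
    (deriv qA r * qG r + qA r * deriv qG r - 2 * qM r * deriv qM r) r := by
  refine (((hd_qA hr).fun_mul (hd_qG hr)).fun_sub ((hd_qM hr).fun_pow 2)).congr_deriv ?_
  push_cast
  ring

theorem hd_gCr1 : HasDerivAt gCr1 (deriv gCr1 r) r := (gCr1_differentiableAt hr).hasDerivAt

theorem hd2_gCr1 : HasDerivAt (deriv gCr1) (deriv (deriv gCr1) r) r := by
  have hv : ContDiff ℝ ∞ fun s : ℝ => vec s 0 0 := by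
    rw [contDiff_euclidean]
    intro i
    simp only [vec_coord]
    fin_cases i <;> simp <;> fun_prop
  have e : gCr1 = fun s => gC (vec s 0 0) := funext fun s => by simp [gC, gCr1, vec_coord]
  have h : ContDiffOn ℝ ∞ gCr1 cylI := by
    rw [e]
    exact gC_contDiffOn.comp hv.contDiffOn fun s hs => by
      show (vec s 0 0) 0 ∈ cylI
      simpa [vec_coord] using hs
  exact ((((contDiffOn_infty_iff_deriv_of_isOpen isOpen_Ioo).1 h).2.differentiableOn
    (by simp)).differentiableAt (isOpen_Ioo.mem_nhds hr)).hasDerivAt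

end profile

theorem gCr1_apply (r : ℝ) (a b : E3) : gCr1 r a b = a 0 * b 0
    + (qG r * (a 1 * b 1) - qM r * (a 1 * b 2 + a 2 * b 1) + qA r * (a 2 * b 2)) / qD r := by
  simp [gCr1, formOf_apply, Fin.sum_univ_three, gCm]
  ring

theorem gC_apply (y a b : E3) : gC y a b = a 0 * b 0
    + (qG (y 0) * (a 1 * b 1) - qM (y 0) * (a 1 * b 2 + a 2 * b 1) + qA (y 0) * (a 2 * b 2))
      / qD (y 0) :=
  gCr1_apply (y 0) a b

theorem gr_apply {r : ℝ} (hr : r ∈ cylI) (a b : E3) : deriv gCr1 r a b =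
    -(deriv qA r * (pX r a * pX r b) + deriv qM r * (pX r a * pW r b + pW r a * pX r b)
      + deriv qG r * (pW r a * pW r b)) := by
  have h := ((hd_gCr1 hr).clm_apply (hasDerivAt_const r a)).clm_apply (hasDerivAt_const r b)
  have e : (fun s => gCr1 s a b) = fun s => a 0 * b 0
      + (qG s * (a 1 * b 1) - qM s * (a 1 * b 2 + a 2 * b 1) + qA s * (a 2 * b 2)) / qD s :=
    funext fun s => gCr1_apply s a b
  rw [e] at h
  have hD := (qD_pos hr).ne'
  have k := (((((hd_qG hr).mul_const (a 1 * b 1)).fun_sub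
    ((hd_qM hr).mul_const (a 1 * b 2 + a 2 * b 1))).fun_add
    ((hd_qA hr).mul_const (a 2 * b 2))).fun_div (hd_qD hr) hD).const_add (a 0 * b 0)
  have hu := h.unique k
  simp only [map_zero, add_zero] at hu
  rw [hu, pX, pX, pW, pW]
  field_simp
  rw [qD]
  ring

theorem gr_symm {r : ℝ} (hr : r ∈ cylI) (a b : E3) :
    deriv gCr1 r a b = deriv gCr1 r b a := by
  rw [gr_apply hr, gr_apply hr]; ring

/-- `∂²g/∂r²` on a vector `c` with `g c = (c₀, x, w)` -/
theorem grr_diag {r x w : ℝ} (hr : r ∈ cylI) (c : E3) (h1 : c 1 = qA r * x + qM r * w)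
    (h2 : c 2 = qM r * x + qG r * w) :
    deriv (deriv gCr1) r c c = -qU'' x w r
      + 2 * qg r (deriv qA r * x + deriv qM r * w) (deriv qM r * x + deriv qG r * w) := by
  have h := ((hd2_gCr1 hr).clm_apply (hasDerivAt_const r c)).clm_apply (hasDerivAt_const r c)
  have hD := (qD_pos hr).ne'
  have kX : HasDerivAt (fun s => pX s c) _ r :=
    (((hd_qG hr).mul_const (c 1)).fun_sub ((hd_qM hr).mul_const (c 2))).fun_div (hd_qD hr) hD
  have kW : HasDerivAt (fun s => pW s c) _ r :=
    (((hd_qA hr).mul_const (c 2)).fun_sub ((hd_qM hr).mul_const (c 1))).fun_div (hd_qD hr) hD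
  have k := ((((hd2_qA hr).fun_mul (kX.fun_mul kX)).fun_add
    ((hd2_qM hr).fun_mul ((kX.fun_mul kW).fun_add (kW.fun_mul kX)))).fun_add
    ((hd2_qG hr).fun_mul (kW.fun_mul kW))).fun_neg
  have he : (fun s => deriv gCr1 s c c) =ᶠ[𝓝 r] _ :=
    eventually_of_mem (isOpen_Ioo.mem_nhds hr) fun s hs => gr_apply hs c c
  have hu := h.unique (k.congr_of_eventuallyEq he)
  simp only [map_zero, add_zero] at hu
  have eX : pX r c = x := by
    rw [pX, h1, h2, div_eq_iff hD, qD]; ring
  have eW : pW r c = w := by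
    rw [pW, h1, h2, div_eq_iff hD, qD]; ring
  rw [hu, eX, eW, h1, h2, qU'', qf, qg]
  field_simp
  rw [qD]
  ring

theorem gCr_eq {y : E3} (hy : y ∈ domC) : gCr y = deriv gCr1 (y 0) := by
  have hr : y 0 ∈ cylI := hy
  have he : ∀ i j, DifferentiableAt ℝ (fun r => gCm r i j) (y 0) := by
    intro i j
    have hA := (hd_qA hr).differentiableAt
    have hM := (hd_qM hr).differentiableAt
    have hG := (hd_qG hr).differentiableAt
    have hD := (hd_qD hr).differentiableAt
    have hD' := (qD_pos hr).ne'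
    fin_cases i <;> fin_cases j <;>
      simp only [gCm, Matrix.cons_val_zero, Matrix.cons_val_one, Matrix.cons_val,
        Fin.reduceFinMk] <;>
      first
        | exact differentiableAt_const _
        | exact hG.fun_div hD hD'
        | exact hM.fun_neg.fun_div hD hD'
        | exact hA.fun_div hD hD'
  symm
  refine HasDerivAt.deriv ?_
  unfold gCr1 gCr formOf
  exact HasDerivAt.fun_sum fun i _ => HasDerivAt.fun_sum fun j _ =>
    (he i j).hasDerivAt.smul_const _

theorem gC_chrBil {y : E3} (hy : y ∈ domC) (u v x : E3) :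
    gC y (chrBil gC y u v) x = (u 0 * deriv gCr1 (y 0) v x + v 0 * deriv gCr1 (y 0) u x
      - x 0 * deriv gCr1 (y 0) u v) / 2 := by
  rw [chrBil_apply, gC_christoffel hy, fderiv_gC hy, fderiv_gC hy, fderiv_gC hy]
  simp

theorem chrBil_symm {y : E3} (hy : y ∈ domC) (u v : E3) :
    chrBil gC y u v = chrBil gC y v u := by
  rw [chrBil_apply, christoffel_eq_of_spec (gC_invertible hy) fun x => ?_]
  rw [gC_chrBil hy, fderiv_gC hy, fderiv_gC hy, fderiv_gC hy, gr_symm (r := y 0) hy v u]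
  simp
  ring

theorem comp_deriv {f : ℝ → E3} {f' : E3} {t : ℝ} (hf : HasDerivAt f f' t) (i : Fin 3) :
    HasDerivAt (fun s => f s i) (f' i) t :=
  ((EuclideanSpace.proj i : E3 →L[ℝ] ℝ).hasFDerivAt).comp_hasDerivAt t hf

theorem hd_deriv {f : ℝ → E3} {t : ℝ} (hf : ContDiffAt ℝ ∞ f t) :
    HasDerivAt (deriv f) (deriv (deriv f) t) t :=
  (show DifferentiableAt ℝ (fun s => fderiv ℝ f s 1) t from
    ((hf.fderiv_right (m := (∞ : WithTop ℕ∞)) (by simp)).clm_apply
      contDiffAt_const).differentiableAt (by simp)).hasDerivAt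

/-- the covector conjugate to the field -/
noncomputable def momX (z X : ℝ → E3) (s : ℝ) : E3 →L[ℝ] ℝ :=
  gC (z s) (deriv X s) + X s 0 • deriv gCr1 (z s 0) (deriv z s)

/-- `U'` along the curve -/
noncomputable def uAt (z : ℝ → E3) (s : ℝ) : ℝ := qU' (momV z s) (momU z s) (z s 0)

/-- `β Q' p`, first component -/
noncomputable def vq1 (z : ℝ → E3) (s : ℝ) : ℝ :=
  deriv qA (z s 0) * momV z s + deriv qM (z s 0) * momU z s

/-- second component of `Q' p` -/
noncomputable def vq2 (z : ℝ → E3) (s : ℝ) : ℝ :=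
  deriv qM (z s 0) * momV z s + deriv qG (z s 0) * momU z s

theorem gr_vel {z : ℝ → E3} {s : ℝ} (hm : z s 0 ∈ cylI) (b : E3) :
    deriv gCr1 (z s 0) (deriv z s) b
      = -(vq1 z s * pX (z s 0) b + vq2 z s * pW (z s 0) b) := by
  have e1 : pX (z s 0) (deriv z s) = momV z s := momV_eq.symm
  have e2 : pW (z s 0) (deriv z s) = momU z s := momU_eq.symm
  rw [gr_apply hm, e1, e2, vq1, vq2]
  ring

theorem gr_vel_vel {z : ℝ → E3} {s : ℝ} (hm : z s 0 ∈ cylI) :
    deriv gCr1 (z s 0) (deriv z s) (deriv z s) = -uAt z s := by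
  have e1 : pX (z s 0) (deriv z s) = momV z s := momV_eq.symm
  have e2 : pW (z s 0) (deriv z s) = momU z s := momU_eq.symm
  rw [gr_vel hm, e1, e2, vq1, vq2, uAt, qU'_eq_qf]
  ring

variable {z X : ℝ → E3} {t : ℝ} (h : CylJac z X t)
include h

theorem hz1 : HasDerivAt z (deriv z t) t := (h.curve.differentiableAt (by simp)).hasDerivAt

theorem hX1 : HasDerivAt X (deriv X t) t := (h.field.differentiableAt (by simp)).hasDerivAt

theorem near_domC : ∀ᶠ s in 𝓝 t, z s ∈ domC :=
  (hz1 h).continuousAt.preimage_mem_nhds (domC_isOpen.mem_nhds (show z t ∈ domC from h.mem))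

theorem zdd : deriv (deriv z) t = -chrBil gC (z t) (deriv z t) (deriv z t) := by
  rw [chrBil_apply]
  exact eq_neg_of_add_eq_zero_left h.geo

theorem jacobi_eq : deriv (deriv X) t =
    -(fderiv ℝ (chrBil gC) (z t) (X t) (deriv z t) (deriv z t))
      - chrBil gC (z t) (deriv z t) (deriv X t) - chrBil gC (z t) (deriv z t) (deriv X t) := by
  have hy : z t ∈ domC := h.mem
  have hcov : covDeriv gC z X =ᶠ[𝓝 t]
      fun s => deriv X s + chrBil gC (z s) (X s) (deriv z s) := by
    filter_upwards [near_domC h] with s hs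
    rw [covDeriv, ← chrBil_apply, chrBil_symm hs]
  have hB : HasDerivAt (fun s => chrBil gC (z s)) _ t :=
    (chrBil_differentiableAt hy).hasFDerivAt.comp_hasDerivAt t (hz1 h)
  have hd := (hd_deriv h.field).fun_add ((hB.clm_apply (hX1 h)).clm_apply (hd_deriv h.curve))
  have hj : covDeriv gC z (covDeriv gC z X) t
      + curv gC (z t) (X t) (deriv z t) (deriv z t) = 0 := h.jac
  have h1 : covDeriv gC z (covDeriv gC z X) t = deriv (covDeriv gC z X) t
      + chrBil gC (z t) (deriv z t) (covDeriv gC z X t) := by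
    rw [covDeriv, chrBil_apply]
  rw [h1, hcov.deriv_eq, hd.deriv, hcov.self_of_nhds,
    curv_eq_chrBil (chrBil_differentiableAt hy), zdd h] at hj
  simp only [map_add, add_apply, map_neg] at hj
  rw [chrBil_symm hy (deriv X t) (deriv z t)] at hj
  rw [← sub_eq_zero, ← hj]
  abel

theorem gC_dchr (e : E3) :
    gC (z t) (fderiv ℝ (chrBil gC) (z t) (X t) (deriv z t) (deriv z t)) e
      = X t 0 * (deriv z t 0 * deriv (deriv gCr1) (z t 0) (deriv z t) e
          - 1 / 2 * e 0 * deriv (deriv gCr1) (z t 0) (deriv z t) (deriv z t))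
        - X t 0 * deriv gCr1 (z t 0) (chrBil gC (z t) (deriv z t) (deriv z t)) e := by
  set c := deriv z t with hc
  set y := z t with hy'
  have hy : y ∈ domC := h.mem
  have hG : HasFDerivAt gC (fderiv ℝ gC y) y :=
    ((gC_contDiffOn.differentiableOn (by simp)).differentiableAt
      (domC_isOpen.mem_nhds hy)).hasFDerivAt
  have hL := (hG.clm_apply (((chrBil_differentiableAt hy).hasFDerivAt.clm_apply
    (hasFDerivAt_const c y)).clm_apply (hasFDerivAt_const c y))).clm_apply (hasFDerivAt_const e y)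
  have hr : HasFDerivAt (fun w : E3 => w 0) radP y := radP.hasFDerivAt
  have hgr : HasFDerivAt (fun w : E3 => deriv gCr1 (w 0)) _ y :=
    (hd2_gCr1 (r := y 0) hy).hasFDerivAt.comp (f := fun w : E3 => w 0) y hr
  have hR := (((hgr.clm_apply (hasFDerivAt_const c y)).clm_apply
    (hasFDerivAt_const e y)).const_mul (c 0)).fun_sub
    (((hgr.clm_apply (hasFDerivAt_const c y)).clm_apply
    (hasFDerivAt_const c y)).const_mul (1 / 2 * e 0))
  have he : (fun w => gC w (chrBil gC w c c) e) =ᶠ[𝓝 y] fun w =>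
      c 0 * deriv gCr1 (w 0) c e - 1 / 2 * e 0 * deriv gCr1 (w 0) c c := by
    filter_upwards [domC_isOpen.mem_nhds hy] with w hw
    rw [gC_chrBil hw]
    ring
  have hu := congrArg (fun L : E3 →L[ℝ] ℝ => L (X t)) (hL.unique (hR.congr_of_eventuallyEq he))
  simp [fderiv_gC hy] at hu
  linear_combination hu

theorem momX_deriv : ∃ D : E3 →L[ℝ] ℝ, HasDerivAt (momX z X) D t ∧ ∀ e, D e =
    e 0 * (deriv gCr1 (z t 0) (deriv z t) (deriv X t)
      + 1 / 2 * X t 0 * deriv (deriv gCr1) (z t 0) (deriv z t) (deriv z t)) := by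
  have hy : z t ∈ domC := h.mem
  have hG : HasDerivAt (fun s => gC (z s)) (fderiv ℝ gC (z t) (deriv z t)) t :=
    (((gC_contDiffOn.differentiableOn (by simp)).differentiableAt
      (domC_isOpen.mem_nhds hy)).hasFDerivAt).comp_hasDerivAt t (hz1 h)
  have hr : HasDerivAt (fun s => deriv gCr1 (z s 0))
      (deriv z t 0 • deriv (deriv gCr1) (z t 0)) t :=
    HasDerivAt.scomp (g₁ := deriv gCr1) (h := fun s => z s 0) t (hd2_gCr1 (r := z t 0) h.mem)
      (comp_deriv (hz1 h) 0)
  refine ⟨_, (hG.clm_apply (hd_deriv h.field)).fun_add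
    ((comp_deriv (hX1 h) 0).fun_smul (hr.clm_apply (hd_deriv h.curve))), fun e => ?_⟩
  have hj := congrArg (fun v => gC (z t) v e) (jacobi_eq h)
  simp only [map_sub, map_neg, sub_apply, neg_apply, gC_dchr h, gC_chrBil hy] at hj
  simp [fderiv_gC hy, zdd h, hj]
  ring

theorem uAt_deriv : HasDerivAt (uAt z)
    (deriv z t 0 * qU'' (momV z t) (momU z t) (z t 0)) t := by
  have hx := momV_deriv h.mem h.curve h.geo
  have hw := momU_deriv h.mem h.curve h.geo
  have hr := comp_deriv (hz1 h) 0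
  have dA := (hd2_qA (r := z t 0) h.mem).comp t hr
  have dM := (hd2_qM (r := z t 0) h.mem).comp t hr
  have dG := (hd2_qG (r := z t 0) h.mem).comp t hr
  have k := ((dA.fun_mul (hx.fun_pow 2)).fun_add (((dM.const_mul 2).fun_mul hx).fun_mul hw)).fun_add
    (dG.fun_mul (hw.fun_pow 2))
  refine HasDerivAt.congr_deriv (f := uAt z) k ?_
  simp [qU'', qf]
  ring

omit h in
theorem fStd_eq {s : ℝ} (hs : z s ∈ domC) : fStd gC z X s =
    gC (z s) (deriv X s) (X s)
      + deriv z s 0 / 2 * deriv gCr1 (z s 0) (X s) (X s) := by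
  rw [fStd, covDeriv, map_add, gC_symm, gC_symm (z s) (X s) (christoffel _ _ _ _), ← chrBil_apply,
    gC_chrBil hs, gr_symm (r := z s 0) hs (deriv z s) (X s)]
  ring

theorem phiGauge_eq (lam : ℝ → ℝ) : phiGauge lam z X =ᶠ[𝓝 t] fun s =>
    momX z X s (X s) - (lam s * X s 0 + lam s ^ 2 * deriv z s 0 / 2) * uAt z s := by
  filter_upwards [near_domC h] with s hs
  have hm : z s 0 ∈ cylI := hs
  have hK := gr_vel_vel (z := z) (s := s) hm
  rw [phiGauge, fStd_eq hs, bdry, gCr_eq hs, momX]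
  simp only [map_add, map_smul, add_apply, smul_apply, PiLp.add_apply, PiLp.smul_apply,
    smul_eq_mul, gr_symm hm (X s) (deriv z s), hK]
  ring

/-- the derivative of `Φ` in an arbitrary differentiable gauge -/
theorem phiGauge_deriv {lam : ℝ → ℝ} {l : ℝ} (hl : HasDerivAt lam l t) :
    HasDerivAt (phiGauge lam z X)
      ((deriv X t 0 - lam t * uAt z t / 2) ^ 2
        + qg (z t 0) (deriv X t 1 - X t 0 * vq1 z t) (deriv X t 2 - X t 0 * vq2 z t)
        + -(1 / 2) * qU'' (momV z t) (momU z t) (z t 0) * (X t 0 + lam t * deriv z t 0) ^ 2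
        - l * (X t 0 + lam t * deriv z t 0) * uAt z t) t := by
  obtain ⟨D, hD, hDe⟩ := momX_deriv h
  have hr : HasDerivAt (fun s => deriv z s 0) (-(1 / 2) * uAt z t) t :=
    radial_eq h.mem h.curve h.geo
  have k := (hD.clm_apply (hX1 h)).fun_sub
    (((hl.fun_mul (comp_deriv (hX1 h) 0)).fun_add
      (((hl.fun_pow 2).fun_mul hr).div_const 2)).fun_mul (uAt_deriv h))
  refine (k.congr_of_eventuallyEq (phiGauge_eq h lam)).congr_deriv ?_
  obtain ⟨h1, h2⟩ := velocity_eq (z := z) (t := t) h.mem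
  rw [hDe, momX]
  simp only [add_apply, smul_apply, smul_eq_mul, gC_apply, gr_vel (z := z) (s := t) h.mem,
    grr_diag (r := z t 0) h.mem (deriv z t) h1 h2, pX, pW, qg, vq1, vq2]
  simp
  ring

omit h in
theorem cov_zero (hX : X t = 0) : covDeriv gC z X t = deriv X t := by
  rw [covDeriv, hX, ← chrBil_apply, map_zero, add_zero]

omit h in
theorem sq_zero (hX : X t = 0) : gC (z t) (covDeriv gC z X t) (covDeriv gC z X t)
    = deriv X t 0 ^ 2 + qg (z t 0) (deriv X t 1) (deriv X t 2) := by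
  rw [cov_zero hX, gC_apply, qg]
  ring

end Vale.Agent.P255.Gauge
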