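import Vale.Agent.P255.Cylinder.Motion
import Vale.Agent.P255.Riem.Compat
import Vale.Agent.P255.Profile.Ineq
import Vale.Agent.P255.Cylinder.GaugeCalc
import Vale.Agent.P255.Cylinder.GaugeBoundary

/-!
# P255 module B3: the monotone functions in the collar

With `ξ = X₀`, `W = X + λ z'`, `Y = η' - ξ Q' p`, `κ = -½ U''`, `U' = p Q' p` (see `GaugeCalc`):
`Φ' = (ξ' - ½ λ U')² + |Y|² + κ W₀² - λ' W₀ U'`.

* `lam0`: `Φ' = ξ'² + |Y|² + κ ξ²`.
* `lamT`: `W₀ = 0`, so `Φ' = (ξ' - ½ λ U')² + |Y|²`.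
* `lamB`: for `β = (1,-1)`, `ḃ = β Q p`, `ḃ' = β Q' p`: `-λ' = (β Y + W₀ ḃ') / ḃ` and
  `|Y|² ≥ (β Y)² / n²`, `n² = β Q β`; completing the square leaves
  `W₀² (κ + U' ḃ'/ḃ - U'² n²/(4 ḃ²)) ≥ 0`. The same with `β = (0,1)` for `lamU`.
* at a zero of `X` all of them give `|DX|²`.
-/

open scoped ContDiff
open Set Filter Topology

namespace Vale.Agent.P255

namespace Gauge

variable {z X : ℝ → E3} {t : ℝ}

theorem qg_split_B {r : ℝ} (hr : r ∈ cylI) (y1 y2 : ℝ) :
    0 < qA r - 2 * qM r + qG r ∧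
      (y1 - y2) ^ 2 / (qA r - 2 * qM r + qG r) ≤ qg r y1 y2 := by
  have hA := qA_pos hr
  have hD := qD_pos hr
  have hn : 0 < qA r - 2 * qM r + qG r := by
    refine pos_of_mul_pos_right (a := qA r) ?_ hA.le
    have e : qA r * (qA r - 2 * qM r + qG r) = (qA r - qM r) ^ 2 + qD r := by rw [qD]; ring
    rw [e]; positivity
  refine ⟨hn, ?_⟩
  have e : qg r y1 y2 * (qA r - 2 * qM r + qG r)
      = (y1 - y2) ^ 2 + ((qG r - qM r) * y1 + (qA r - qM r) * y2) ^ 2 / qD r := by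
    rw [qg]; field_simp; rw [qD]; ring
  rw [div_le_iff₀ hn, e]
  exact le_add_of_nonneg_right (div_nonneg (sq_nonneg _) hD.le)

theorem qG_pos {r : ℝ} (hr : r ∈ cylI) : 0 < qG r := one_div_pos.2 (pow_pos (wR_pos hr) 2)

theorem qg_split_U {r : ℝ} (hr : r ∈ cylI) (y1 y2 : ℝ) : y2 ^ 2 / qG r ≤ qg r y1 y2 := by
  have hG := qG_pos hr
  have hD := qD_pos hr
  have e : qg r y1 y2 * qG r = y2 ^ 2 + (qG r * y1 - qM r * y2) ^ 2 / qD r := by
    rw [qg]; field_simp; rw [qD]; ring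
  rw [div_le_iff₀ hG, e]
  exact le_add_of_nonneg_right (div_nonneg (sq_nonneg _) hD.le)

theorem qg_nonneg {r : ℝ} (hr : r ∈ cylI) (y1 y2 : ℝ) : 0 ≤ qg r y1 y2 :=
  (div_nonneg (sq_nonneg _) (qg_split_B hr y1 y2).1.le).trans (qg_split_B hr y1 y2).2

/-- completing the square in a reflection gauge -/
theorem reflect_ineq {n b s q k U W b' : ℝ} (hn : 0 < n) (hb : b ≠ 0) (hq : s ^ 2 / n ≤ q)
    (hk : 0 ≤ k + U * b' / b - U ^ 2 * n / (4 * b ^ 2)) :
    0 ≤ q + k * W ^ 2 + U * W * ((s + W * b') / b) := by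
  have h1 : 0 ≤ (s + U * W * n / (2 * b)) ^ 2 / n := by positivity
  have e : (s + U * W * n / (2 * b)) ^ 2 / n
      = s ^ 2 / n + U * W * (s / b) + U ^ 2 * W ^ 2 * n / (4 * b ^ 2) := by
    field_simp; ring
  have h2 := mul_nonneg (sq_nonneg W) hk
  have e2 : U * W * ((s + W * b') / b) = U * W * (s / b) + W ^ 2 * (U * b' / b) := by
    field_simp
  have e3 : W ^ 2 * (k + U * b' / b - U ^ 2 * n / (4 * b ^ 2))
      = k * W ^ 2 + W ^ 2 * (U * b' / b) - U ^ 2 * W ^ 2 * n / (4 * b ^ 2) := by ring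
  rw [e3] at h2
  rw [e] at h1
  linarith

theorem lamT_radial (hd : deriv z t 0 ≠ 0) : (X t + lamT z X t • deriv z t) 0 = 0 := by
  simp only [PiLp.add_apply, PiLp.smul_apply, smul_eq_mul, lamT]
  field_simp
  ring

theorem lamT_hasDerivAt (h : CylJac z X t) (hd : deriv z t 0 ≠ 0) :
    ∃ l, HasDerivAt (lamT z X) l t :=
  ⟨_, (comp_deriv (hX1 h) 0).fun_neg.fun_div (comp_deriv (hd_deriv h.curve) 0) hd⟩

theorem lamB_hasDerivAt (h : CylJac z X t) (hd : deriv z t 1 ≠ deriv z t 2) :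
    HasDerivAt (lamB z X) (-((deriv X t 1 - deriv X t 2)
      + lamB z X t * (deriv z t 0 * bdot' (momV z t) (momU z t) (z t 0)))
      / (deriv z t 1 - deriv z t 2)) t := by
  have hr := comp_deriv (hz1 h) 0
  have he : (fun s => deriv z s 1 - deriv z s 2) =ᶠ[𝓝 t]
      fun s => (qA (z s 0) - qM (z s 0)) * momV z s + (qM (z s 0) - qG (z s 0)) * momU z s := by
    filter_upwards [near_domC h] with s hs
    rw [(bdot_eq (z := z) (t := s) hs).1, bdot]
  have dA := (hd_qA (r := z t 0) h.mem).comp t hr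
  have dM := (hd_qM (r := z t 0) h.mem).comp t hr
  have dG := (hd_qG (r := z t 0) h.mem).comp t hr
  have k : HasDerivAt (fun s => deriv z s 1 - deriv z s 2)
      (deriv z t 0 * bdot' (momV z t) (momU z t) (z t 0)) t := by
    refine HasDerivAt.congr_deriv ((((dA.fun_sub dM).fun_mul (momV_deriv h.mem h.curve h.geo)).fun_add
      ((dM.fun_sub dG).fun_mul (momU_deriv h.mem h.curve h.geo))).congr_of_eventuallyEq he) ?_
    simp [bdot']
    ring
  have hb : deriv z t 1 - deriv z t 2 ≠ 0 := sub_ne_zero.2 hd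
  refine HasDerivAt.congr_deriv
    (f := lamB z X) ((((comp_deriv (hX1 h) 1).fun_sub (comp_deriv (hX1 h) 2)).fun_neg).fun_div k hb) ?_
  rw [lamB]
  field_simp
  ring

theorem lamU_hasDerivAt (h : CylJac z X t) (hd : deriv z t 2 ≠ 0) :
    HasDerivAt (lamU z X) (-(deriv X t 2
      + lamU z X t * (deriv z t 0 * udot' (momV z t) (momU z t) (z t 0))) / deriv z t 2) t := by
  have hr := comp_deriv (hz1 h) 0
  have he : (fun s => deriv z s 2) =ᶠ[𝓝 t]
      fun s => qM (z s 0) * momV z s + qG (z s 0) * momU z s := by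
    filter_upwards [near_domC h] with s hs
    rw [(bdot_eq (z := z) (t := s) hs).2, udot]
  have dM := (hd_qM (r := z t 0) h.mem).comp t hr
  have dG := (hd_qG (r := z t 0) h.mem).comp t hr
  have k : HasDerivAt (fun s => deriv z s 2)
      (deriv z t 0 * udot' (momV z t) (momU z t) (z t 0)) t := by
    refine HasDerivAt.congr_deriv (((dM.fun_mul (momV_deriv h.mem h.curve h.geo)).fun_add
      (dG.fun_mul (momU_deriv h.mem h.curve h.geo))).congr_of_eventuallyEq he) ?_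
    simp [udot']
    ring
  refine HasDerivAt.congr_deriv (f := lamU z X) (((comp_deriv (hX1 h) 2).fun_neg).fun_div k hd) ?_
  rw [lamU]
  field_simp
  ring

end Gauge

open Gauge

variable {z X : ℝ → E3} {t : ℝ}

theorem phi0_deriv (h : CylJac z X t) (hr : z t 0 ∈ Ioo (0:ℝ) 1) :
    ∃ d, HasDerivAt (phiGauge (lam0 z X) z X) d t ∧ 0 ≤ d ∧
      (X t = 0 → d = gC (z t) (covDeriv gC z X t) (covDeriv gC z X t)) := by
  refine ⟨_, Gauge.phiGauge_deriv h (lam := lam0 z X) (l := 0) (hasDerivAt_const t 0), ?_, fun hX => ?_⟩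
  · have h1 := collar_concave (Ioo_subset_Icc_self hr) (momV z t) (momU z t)
    have h2 := qg_nonneg (r := z t 0) h.mem
      (deriv X t 1 - X t 0 * vq1 z t) (deriv X t 2 - X t 0 * vq2 z t)
    simp only [lam0, zero_mul, add_zero, sub_zero]
    nlinarith [sq_nonneg (deriv X t 0 - 0 / 2), sq_nonneg (X t 0)]
  · rw [sq_zero hX]
    simp [lam0, hX]

theorem phiT_deriv (h : CylJac z X t) (hr : z t 0 ∈ Ioo (0:ℝ) 1) (hd : deriv z t 0 ≠ 0) :
    ∃ d, HasDerivAt (phiGauge (lamT z X) z X) d t ∧ 0 ≤ d ∧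
      (X t = 0 → d = gC (z t) (covDeriv gC z X t) (covDeriv gC z X t)) := by
  obtain ⟨l, hl⟩ := lamT_hasDerivAt h hd
  have hW := lamT_radial (z := z) (X := X) hd
  simp only [PiLp.add_apply, PiLp.smul_apply, smul_eq_mul] at hW
  refine ⟨_, Gauge.phiGauge_deriv h hl, ?_, fun hX => ?_⟩
  · rw [hW]
    have h2 := qg_nonneg (r := z t 0) h.mem
      (deriv X t 1 - X t 0 * vq1 z t) (deriv X t 2 - X t 0 * vq2 z t)
    nlinarith [sq_nonneg (deriv X t 0 - lamT z X t * uAt z t / 2)]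
  · rw [sq_zero hX]
    simp [lamT, hX]

theorem phiB_deriv (h : CylJac z X t) (hr : z t 0 ∈ Ioo (0:ℝ) 1)
    (hd : 0 < qU' (momV z t) (momU z t) (z t 0)) :
    ∃ d, HasDerivAt (phiGauge (lamB z X) z X) d t ∧ 0 ≤ d ∧
      (X t = 0 → d = gC (z t) (covDeriv gC z X t) (covDeriv gC z X t)) := by
  have hb : bdot (momV z t) (momU z t) (z t 0) ≠ 0 := bdot_ne_zero (Ioo_subset_Icc_self hr) hd
  have hv := (bdot_eq (z := z) (t := t) h.mem).1
  have hb' : deriv z t 1 ≠ deriv z t 2 := by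
    rw [ne_eq, ← sub_eq_zero, hv]; exact hb
  refine ⟨_, Gauge.phiGauge_deriv h (lamB_hasDerivAt h hb'), ?_, fun hX => ?_⟩
  · have hq := qg_split_B (r := z t 0) h.mem
      (deriv X t 1 - X t 0 * vq1 z t) (deriv X t 2 - X t 0 * vq2 z t)
    have hk := left_gauge_nonneg hr hd
    have key := reflect_ineq (W := X t 0 + lamB z X t * deriv z t 0) hq.1 hb hq.2 hk
    refine le_trans key ?_
    refine (le_add_of_nonneg_left
      (sq_nonneg (deriv X t 0 - lamB z X t * uAt z t / 2))).trans_eq ?_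
    rw [lamB, hv, uAt, vq1, vq2, bdot']
    field_simp
    ring
  · rw [sq_zero hX]
    simp [lamB, hX]

theorem phiU_deriv (h : CylJac z X t) (hr : z t 0 ∈ Ioo (0:ℝ) 1)
    (hd : qU' (momV z t) (momU z t) (z t 0) < 0) :
    ∃ d, HasDerivAt (phiGauge (lamU z X) z X) d t ∧ 0 ≤ d ∧
      (X t = 0 → d = gC (z t) (covDeriv gC z X t) (covDeriv gC z X t)) := by
  have hb : udot (momV z t) (momU z t) (z t 0) ≠ 0 := udot_ne_zero (Ioo_subset_Icc_self hr) hd
  have hv := (bdot_eq (z := z) (t := t) h.mem).2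
  have hb' : deriv z t 2 ≠ 0 := by
    rw [hv]; exact hb
  refine ⟨_, Gauge.phiGauge_deriv h (lamU_hasDerivAt h hb'), ?_, fun hX => ?_⟩
  · have hq := qg_split_U (r := z t 0) h.mem
      (deriv X t 1 - X t 0 * vq1 z t) (deriv X t 2 - X t 0 * vq2 z t)
    have hk := right_gauge_nonneg hr hd
    have key := reflect_ineq (W := X t 0 + lamU z X t * deriv z t 0) (qG_pos (r := z t 0) h.mem) hb hq hk
    refine le_trans key ?_
    refine (le_add_of_nonneg_left
      (sq_nonneg (deriv X t 0 - lamU z X t * uAt z t / 2))).trans_eq ?_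
    rw [lamU, hv, uAt, vq1, vq2, udot']
    field_simp
    ring
  · rw [sq_zero hX]
    simp [lamU, hX]

end Vale.Agent.P255
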