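import Vale.Agent.P255.Cylinder.Defs
import Vale.Agent.P255.Profile.Basic
import Vale.Agent.P255.Cylinder.Curvature

/-!
# P255 module B2: geodesics and curvature of the three coordinate metrics
-/

open scoped ContDiff
open Set Filter Topology

namespace Vale.Agent.P255

set_option maxSynthPendingDepth 3

variable {z : ℝ → E3} {t : ℝ}

theorem gC_symm (y a b : E3) : gC y a b = gC y b a := by
  rw [gC, formOf_apply, formOf_apply]
  simp [Fin.sum_univ_three, gCm]
  ring

theorem gC_metricNear {y : E3} (hy : y ∈ domC) : MetricNear gC y := by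
  have h := domC_isOpen.mem_nhds hy
  exact
    { smooth := eventually_of_mem h fun w hw =>
        gC_contDiffOn.contDiffAt (domC_isOpen.mem_nhds hw)
      symm := Eventually.of_forall fun w a b => gC_symm w a b
      pos := eventually_of_mem h fun w hw => gC_pos hw }

theorem constForm_metricNear {c : ℝ} (hc : 0 < c) (y : E3) :
    MetricNear (fun _ => formOf ![![1, 0, 0], ![0, 1, 0], ![0, 0, c]]) y where
  smooth := Eventually.of_forall fun _ => contDiffAt_const
  symm := Eventually.of_forall fun _ a b => by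
    simp [formOf_apply, Fin.sum_univ_three]
    ring
  pos := Eventually.of_forall fun _ a ha => by
    simp [formOf_apply, Fin.sum_univ_three]
    by_contra hn
    push Not at hn
    have h0 := mul_self_nonneg (a 0)
    have h1 := mul_self_nonneg (a 1)
    have h2 := mul_nonneg hc.le (mul_self_nonneg (a 2))
    have e0 : a 0 = 0 := mul_self_eq_zero.1 (by linarith)
    have e1 : a 1 = 0 := mul_self_eq_zero.1 (by linarith)
    have e2 : a 2 = 0 := mul_self_eq_zero.1
      ((mul_eq_zero.1 (by linarith : c * (a 2 * a 2) = 0)).resolve_left hc.ne')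
    exact ha (by ext i; fin_cases i <;> simp [e0, e1, e2])

theorem gL_metricNear (y : E3) : MetricNear gL y := constForm_metricNear one_pos y

theorem gR_metricNear (y : E3) : MetricNear gR y :=
  constForm_metricNear (pow_pos (one_div_pos.2 (Real.sqrt_pos.2
    (qA_pos ⟨by norm_num, by norm_num⟩))) 2) y

/-- `gC` does not depend on `v, u` -/
theorem gC_translate (y : E3) (a b : ℝ) : gC (y + vec 0 a b) = gC y :=
  gC_shift (by simp [vec_coord]) y

/-- the metric as a function of the radius -/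
noncomputable def gCr1 (r : ℝ) : Form 3 := formOf (gCm r)

theorem gCr1_differentiableAt {r : ℝ} (hr : r ∈ cylI) : DifferentiableAt ℝ gCr1 r := by
  have hv : Differentiable ℝ fun r : ℝ => vec r 0 0 := by
    rw [differentiable_euclidean]
    intro i
    simp only [vec_coord]
    fin_cases i <;> simp
  have e : gCr1 = fun r => gC (vec r 0 0) := funext fun r => by simp [gC, gCr1, vec_coord]
  have hm : vec r 0 0 ∈ domC := by
    show (vec r 0 0) 0 ∈ cylI
    simpa [vec_coord] using hr
  rw [e]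
  exact DifferentiableAt.comp (g := gC) (f := fun r : ℝ => vec r 0 0) r
    ((gC_contDiffOn.differentiableOn (by simp)).differentiableAt (domC_isOpen.mem_nhds hm)) (hv r)

theorem fderiv_gC {y : E3} (hy : y ∈ domC) (u : E3) :
    fderiv ℝ gC y u = u 0 • deriv gCr1 (y 0) := by
  have hr : HasFDerivAt (fun z : E3 => z 0) radP y := radP.hasFDerivAt
  have h : HasFDerivAt gC _ y := HasFDerivAt.comp (g := gCr1) (f := fun z : E3 => z 0) y
    (gCr1_differentiableAt (r := y 0) hy).hasDerivAt.hasFDerivAt hr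
  rw [h.fderiv]
  simp

theorem fderiv_gC_angle {y : E3} (hy : y ∈ domC) {u : E3} (hu : u 0 = 0) :
    fderiv ℝ gC y u = 0 := by rw [fderiv_gC hy, hu, zero_smul]

theorem gC_christoffel {y : E3} (hy : y ∈ domC) (u v x : E3) :
    gC y (christoffel gC y u v) x
      = (fderiv ℝ gC y u v x + fderiv ℝ gC y v u x - fderiv ℝ gC y x u v) / 2 := by
  rw [christoffel, (gC_invertible hy).self_apply_inverse]
  simp
  ring

/-- a constant vector paired with the velocity of a geodesic -/
theorem hasDerivAt_pair_const (hm : z t 0 ∈ cylI) (hc : ContDiffAt ℝ ∞ z t) (hz : GeoAt gC z t)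
    (e : E3) :
    HasDerivAt (fun s => gC (z s) (deriv z s) e)
      ((1 / 2 : ℝ) * fderiv ℝ gC (z t) e (deriv z t) (deriv z t)) t := by
  have hy : z t ∈ domC := hm
  have hz1 : HasDerivAt z (deriv z t) t := (hc.differentiableAt (by simp)).hasDerivAt
  have hz2 : HasDerivAt (deriv z) (deriv (deriv z) t) t :=
    (show DifferentiableAt ℝ (fun s => fderiv ℝ z s 1) t from
      ((hc.fderiv_right (m := (∞ : WithTop ℕ∞)) (by simp)).clm_apply
        contDiffAt_const).differentiableAt (by simp)).hasDerivAt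
  have hG : HasDerivAt (fun s => gC (z s)) (fderiv ℝ gC (z t) (deriv z t)) t :=
    (((gC_contDiffOn.differentiableOn (by simp)).differentiableAt
      (domC_isOpen.mem_nhds hy)).hasFDerivAt).comp_hasDerivAt t hz1
  refine ((hG.clm_apply hz2).clm_apply (hasDerivAt_const t e)).congr_deriv ?_
  have hacc : deriv (deriv z) t = -christoffel gC (z t) (deriv z t) (deriv z t) :=
    eq_neg_of_add_eq_zero_left hz
  simp [hacc, gC_christoffel hy]
  ring

theorem momV_deriv (hm : z t 0 ∈ cylI) (hc : ContDiffAt ℝ ∞ z t) (hz : GeoAt gC z t) :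
    HasDerivAt (momV z) 0 t := by
  refine (hasDerivAt_pair_const hm hc hz (vec 0 1 0)).congr_deriv ?_
  rw [fderiv_gC_angle (y := z t) hm (by simp [vec_coord])]
  simp

theorem momU_deriv (hm : z t 0 ∈ cylI) (hc : ContDiffAt ℝ ∞ z t) (hz : GeoAt gC z t) :
    HasDerivAt (momU z) 0 t := by
  refine (hasDerivAt_pair_const hm hc hz (vec 0 0 1)).congr_deriv ?_
  rw [fderiv_gC_angle (y := z t) hm (by simp [vec_coord])]
  simp

theorem momV_eq : momV z t =
    (qG (z t 0) * deriv z t 1 - qM (z t 0) * deriv z t 2) / qD (z t 0) := by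
  rw [momV, gC, formOf_apply]
  simp [Fin.sum_univ_three, gCm, vec_coord]
  ring

theorem momU_eq : momU z t =
    (qA (z t 0) * deriv z t 2 - qM (z t 0) * deriv z t 1) / qD (z t 0) := by
  rw [momU, gC, formOf_apply]
  simp [Fin.sum_univ_three, gCm, vec_coord]
  ring

theorem velocity_eq (hm : z t 0 ∈ cylI) :
    deriv z t 1 = qA (z t 0) * momV z t + qM (z t 0) * momU z t ∧
    deriv z t 2 = qM (z t 0) * momV z t + qG (z t 0) * momU z t := by
  have hD := (qD_pos hm).ne'
  rw [momV_eq, momU_eq]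
  constructor <;> field_simp <;> rw [qD] <;> ring

theorem bdot_eq (hm : z t 0 ∈ cylI) :
    deriv z t 1 - deriv z t 2 = bdot (momV z t) (momU z t) (z t 0) ∧
    deriv z t 2 = udot (momV z t) (momU z t) (z t 0) := by
  obtain ⟨h1, h2⟩ := velocity_eq hm
  refine ⟨?_, ?_⟩
  · rw [bdot, h1, h2]; ring
  · rw [udot, h2]

theorem deriv_gCr1_radial {r : ℝ} (hr : r ∈ cylI) (v : E3) :
    deriv gCr1 r v radV = 0 := by
  have h := ((gCr1_differentiableAt hr).hasDerivAt.clm_apply (hasDerivAt_const r v)).clm_apply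
    (hasDerivAt_const r radV)
  have e : (fun s => gCr1 s v radV) = fun _ => v 0 := funext fun s => by
    simp [gCr1, formOf_apply, Fin.sum_univ_three, gCm, radV, vec_coord]
  rw [e] at h
  simpa using h.unique (hasDerivAt_const r (v 0))

theorem deriv_gCr1_quad {r : ℝ} (hr : r ∈ cylI) (v : E3) {x w : ℝ}
    (h1 : v 1 = qA r * x + qM r * w) (h2 : v 2 = qM r * x + qG r * w) :
    deriv gCr1 r v v = -qU' x w r := by
  have h := ((gCr1_differentiableAt hr).hasDerivAt.clm_apply (hasDerivAt_const r v)).clm_apply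
    (hasDerivAt_const r v)
  have e : (fun s => gCr1 s v v) = fun s => v 0 * v 0
      + (qG s * (v 1 * v 1) - qM s * (2 * (v 1 * v 2)) + qA s * (v 2 * v 2)) / qD s :=
    funext fun s => by
      simp [gCr1, formOf_apply, Fin.sum_univ_three, gCm]
      ring
  rw [e] at h
  have nh := isOpen_Ioo.mem_nhds (show r ∈ cylI from hr)
  have dA := ((qA_smooth.differentiableOn (by simp)).differentiableAt nh).hasDerivAt
  have dM := ((qM_smooth.differentiableOn (by simp)).differentiableAt nh).hasDerivAt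
  have dG := ((qG_smooth.differentiableOn (by simp)).differentiableAt nh).hasDerivAt
  have dD : HasDerivAt qD _ r := (dA.fun_mul dG).fun_sub (dM.fun_pow 2)
  have hD := (qD_pos hr).ne'
  have k := ((((dG.mul_const (v 1 * v 1)).fun_sub (dM.mul_const (2 * (v 1 * v 2)))).fun_add
    (dA.mul_const (v 2 * v 2))).fun_div dD hD).const_add (v 0 * v 0)
  have hu := h.unique k
  simp only [map_zero, add_zero] at hu
  rw [hu, h1, h2, qU', qf]
  field_simp
  rw [qD]
  push_cast
  ring

/-- the radial equation -/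
theorem radial_eq (hm : z t 0 ∈ cylI) (hc : ContDiffAt ℝ ∞ z t) (hz : GeoAt gC z t) :
    HasDerivAt (fun s => deriv z s 0)
      (-(1/2) * qU' (momV z t) (momU z t) (z t 0)) t := by
  have hy : z t ∈ domC := hm
  have hrad : ∀ y a : E3, gC y a radV = a 0 := fun y a => by
    simp [gC, formOf_apply, Fin.sum_univ_three, gCm, radV, vec_coord]
  have h := hasDerivAt_pair_const hm hc hz radV
  have e : (fun s => gC (z s) (deriv z s) radV) = fun s => deriv z s 0 :=
    funext fun s => hrad _ _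
  rw [e] at h
  refine h.congr_deriv ?_
  obtain ⟨h1, h2⟩ := velocity_eq hm
  rw [fderiv_gC hy, radV_zero, one_smul, deriv_gCr1_quad hm (deriv z t) h1 h2]
  ring

theorem energy_eq (hm : z t 0 ∈ cylI) :
    gC (z t) (deriv z t) (deriv z t)
      = deriv z t 0 ^ 2 + qU (momV z t) (momU z t) (z t 0) := by
  have hD := (qD_pos hm).ne'
  obtain ⟨h1, h2⟩ := velocity_eq hm
  rw [gC, formOf_apply]
  simp [Fin.sum_univ_three, gCm]
  rw [qU, qf, h1, h2]
  field_simp
  rw [qD]
  ring

theorem qU'_smooth (x w : ℝ) : ContDiffOn ℝ ∞ (qU' x w) cylI := by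
  have hd : ∀ {f : ℝ → ℝ}, ContDiffOn ℝ ∞ f cylI → ContDiffOn ℝ ∞ (deriv f) cylI := fun hf =>
    ((contDiffOn_infty_iff_deriv_of_isOpen isOpen_Ioo).1 hf).2
  unfold qU' qf
  exact (((hd qA_smooth).mul contDiffOn_const).add
    (((contDiffOn_const.mul (hd qM_smooth)).mul contDiffOn_const).mul contDiffOn_const)).add
    ((hd qG_smooth).mul contDiffOn_const)

/-- uniqueness for `r'' = -½ U'(r)` at a rest point -/
theorem equilibrium_const {x w : ℝ} {r : ℝ → ℝ} {s : Set ℝ} (hs : s.OrdConnected)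
    (hr : ∀ τ ∈ s, r τ ∈ cylI)
    (h1 : ∀ τ ∈ s, DifferentiableAt ℝ r τ)
    (h2 : ∀ τ ∈ s, HasDerivAt (deriv r) (-(1/2) * qU' x w (r τ)) τ)
    {τ₀ : ℝ} (h0 : τ₀ ∈ s) (hd : deriv r τ₀ = 0) (hU : qU' x w (r τ₀) = 0) :
    ∀ τ ∈ s, r τ = r τ₀ := by
  intro τ hτ
  set J := uIcc τ₀ τ with hJ
  have hJs : J ⊆ s := hs.uIcc_subset h0 hτ
  have hne : J.Nonempty := nonempty_uIcc
  have hrc : ContinuousOn r J := fun σ hσ => (h1 σ (hJs hσ)).continuousAt.continuousWithinAt
  obtain ⟨lo, hlo, hmin⟩ := isCompact_uIcc.exists_isMinOn hne hrc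
  obtain ⟨hi, hhi, hmax⟩ := isCompact_uIcc.exists_isMaxOn hne hrc
  set m := r lo
  set M := r hi
  have hmM : ∀ σ ∈ J, r σ ∈ Icc m M := fun σ hσ =>
    ⟨isMinOn_iff.1 hmin σ hσ, isMaxOn_iff.1 hmax σ hσ⟩
  have hsub : Icc m M ⊆ cylI := fun a ha =>
    ⟨lt_of_lt_of_le (hr lo (hJs hlo)).1 ha.1, lt_of_le_of_lt ha.2 (hr hi (hJs hhi)).2⟩
  have hU1 := qU'_smooth x w
  obtain ⟨L, hL⟩ := isCompact_Icc.exists_bound_of_continuousOn
    ((hU1.continuousOn_deriv_of_isOpen isOpen_Ioo (by simp)).mono hsub)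
  have hJ0 : τ₀ ∈ J := left_mem_uIcc
  have hlip : ∀ σ ∈ J, |qU' x w (r σ) - qU' x w (r τ₀)| ≤ L * |r σ - r τ₀| := fun σ hσ =>
    Convex.norm_image_sub_le_of_norm_deriv_le
      (fun a ha => (hU1.differentiableOn (by simp)).differentiableAt
        (isOpen_Ioo.mem_nhds (hsub ha)))
      hL (convex_Icc m M) (hmM τ₀ hJ0) (hmM σ hσ)
  have hL0 : 0 ≤ L := (norm_nonneg _).trans (hL (r τ₀) (hmM τ₀ hJ0))
  set E := fun σ => (r σ - r τ₀) ^ 2 + deriv r σ ^ 2 with hE
  have hEd : ∀ σ ∈ J, HasDerivAt E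
      (2 * (r σ - r τ₀) * deriv r σ + 2 * deriv r σ * (-(1/2) * qU' x w (r σ))) σ := fun σ hσ => by
    refine ((((h1 σ (hJs hσ)).hasDerivAt.sub_const (r τ₀)).fun_pow 2).fun_add
      ((h2 σ (hJs hσ)).fun_pow 2)).congr_deriv ?_
    simp
  set C := 1 + L with hC
  have hbd : ∀ σ ∈ J,
      |2 * (r σ - r τ₀) * deriv r σ + 2 * deriv r σ * (-(1/2) * qU' x w (r σ))| ≤ C * E σ := by
    intro σ hσ
    have hl := hlip σ hσ
    rw [hU, sub_zero] at hl
    set a := r σ - r τ₀
    set b := deriv r σ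
    have hab : 2 * (|a| * |b|) ≤ a ^ 2 + b ^ 2 := by
      nlinarith [sq_nonneg (|a| - |b|), sq_abs a, sq_abs b]
    calc |2 * a * b + 2 * b * (-(1/2) * qU' x w (r σ))|
        ≤ 2 * (|a| * |b|) + |b| * |qU' x w (r σ)| := by
          refine (abs_add_le _ _).trans (le_of_eq ?_)
          simp only [abs_mul, abs_neg, abs_two, abs_of_pos (by norm_num : (0:ℝ) < 1/2)]
          ring
      _ ≤ 2 * (|a| * |b|) + |b| * (L * |a|) :=
          add_le_add le_rfl (mul_le_mul_of_nonneg_left hl (abs_nonneg b))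
      _ ≤ C * E σ := by
          simp only [hE, hC]
          nlinarith [mul_le_mul_of_nonneg_left hab hL0, mul_nonneg hL0 (sq_nonneg a),
            mul_nonneg hL0 (sq_nonneg b)]
  have hE0 : E τ₀ = 0 := by simp [hE, hd]
  have hEτ : E τ ≤ 0 := by
    rcases le_total τ₀ τ with hle | hle
    · have hF : ∀ σ ∈ J, HasDerivAt (fun σ => E σ * Real.exp (-(C * σ))) _ σ := fun σ hσ =>
        (hEd σ hσ).fun_mul (((hasDerivAt_id' σ).const_mul C).fun_neg.exp)
      have hanti : AntitoneOn (fun σ => E σ * Real.exp (-(C * σ))) J :=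
        antitoneOn_of_hasDerivWithinAt_nonpos (convex_uIcc τ₀ τ)
          (fun σ hσ => (hF σ hσ).continuousAt.continuousWithinAt)
          (fun σ hσ => (hF σ (interior_subset hσ)).hasDerivWithinAt)
          (fun σ hσ => by
            have hb := (abs_le.1 (hbd σ (interior_subset hσ))).2
            have he := Real.exp_pos (-(C * σ))
            nlinarith [mul_le_mul_of_nonneg_right hb he.le])
      have := hanti hJ0 right_mem_uIcc hle
      simp only [hE0, zero_mul] at this
      exact nonpos_of_mul_nonpos_left this (Real.exp_pos _)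
    · have hF : ∀ σ ∈ J, HasDerivAt (fun σ => E σ * Real.exp (C * σ)) _ σ := fun σ hσ =>
        (hEd σ hσ).fun_mul (((hasDerivAt_id' σ).const_mul C).exp)
      have hmono : MonotoneOn (fun σ => E σ * Real.exp (C * σ)) J :=
        monotoneOn_of_hasDerivWithinAt_nonneg (convex_uIcc τ₀ τ)
          (fun σ hσ => (hF σ hσ).continuousAt.continuousWithinAt)
          (fun σ hσ => (hF σ (interior_subset hσ)).hasDerivWithinAt)
          (fun σ hσ => by
            have hb := (abs_le.1 (hbd σ (interior_subset hσ))).1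
            have he := Real.exp_pos (C * σ)
            nlinarith [mul_le_mul_of_nonneg_right hb he.le])
      have := hmono right_mem_uIcc hJ0 hle
      simp only [hE0, zero_mul] at this
      exact nonpos_of_mul_nonpos_left this (Real.exp_pos _)
  have h3 : (r τ - r τ₀) ^ 2 ≤ 0 := by
    have : E τ = (r τ - r τ₀) ^ 2 + deriv r τ ^ 2 := rfl
    linarith [sq_nonneg (deriv r τ)]
  exact sub_eq_zero.1 (sq_eq_zero_iff.1 (le_antisymm h3 (sq_nonneg _)))

end Vale.Agent.P255
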